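import Vale.Agent.P165.EX.Semi.Criteria
import Mathlib

/-!
# Strongly irreducible factors of a completely reducible representation

A completely reducible representation stays so on normal subgroups, so on some subgroup of finite
index the space is a sum of subspaces irreducible for every smaller subgroup of finite index. If
all determinants on invariant subspaces are roots of unity, the factors of degree at least two
become representations into special linear groups which together see every element that acts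
nontrivially.
-/

namespace Vale.Agent.P165.EX.Red

open Matrix
open scoped MatrixGroups

variable {K : Type} [Field K] {n : ℕ} {Γ : Type} [Group Γ]
  (rep : Γ →* Matrix (Fin n) (Fin n) K)

/-- A subspace preserved by a subgroup. -/
def Stable (H : Subgroup Γ) (V : Submodule K (Fin n → K)) : Prop :=
  ∀ h ∈ H, ∀ v ∈ V, toLin' (rep h) v ∈ V

/-- A stable subspace without proper stable subspaces of subgroups of finite index. -/
def StronglyIrred (H : Subgroup Γ) (V : Submodule K (Fin n → K)) : Prop :=
  Stable rep H V ∧ ∀ L ≤ H, L.FiniteIndex → ∀ W ≤ V, Stable rep L W → W = ⊥ ∨ W = V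

variable {rep}

theorem Stable.mono {H L : Subgroup Γ} (hLH : L ≤ H) {V : Submodule K (Fin n → K)}
    (h : Stable rep H V) : Stable rep L V := fun g hg => h g (hLH hg)

theorem StronglyIrred.mono {H L : Subgroup Γ} (hLH : L ≤ H) {V : Submodule K (Fin n → K)}
    (h : StronglyIrred rep H V) : StronglyIrred rep L V :=
  ⟨h.1.mono hLH, fun M hM => h.2 M (hM.trans hLH)⟩

theorem Stable.inf {H : Subgroup Γ} {V W : Submodule K (Fin n → K)} (hV : Stable rep H V)
    (hW : Stable rep H W) : Stable rep H (V ⊓ W) :=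
  fun g hg v hv => ⟨hV g hg v hv.1, hW g hg v hv.2⟩

theorem Stable.sup {H : Subgroup Γ} {V W : Submodule K (Fin n → K)} (hV : Stable rep H V)
    (hW : Stable rep H W) : Stable rep H (V ⊔ W) := by
  intro g hg v hv
  obtain ⟨a, ha, b, hb, rfl⟩ := Submodule.mem_sup.1 hv
  rw [map_add]
  exact add_mem (Submodule.mem_sup_left (hV g hg a ha)) (Submodule.mem_sup_right (hW g hg b hb))

/-- A normal subgroup acts completely reducibly: its minimal stable subspaces span a subspace
stable under the whole group. -/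
theorem exists_stable_compl (hcr : Semi.Reducible rep) (N : Subgroup Γ) [N.Normal]
    {W : Submodule K (Fin n → K)} (hW : Stable rep N W) :
    ∃ C, IsCompl W C ∧ Stable rep N C := by
  classical
  set atoms := {V : Submodule K (Fin n → K) |
    Minimal (fun X => X ≠ ⊥ ∧ Stable rep N X) V}
  have hinv : ∀ a : Γ, toLin' (rep a⁻¹) ∘ₗ toLin' (rep a) = LinearMap.id := fun a => by
    rw [← toLin'_mul, ← map_mul, inv_mul_cancel, map_one, toLin'_one]
  have hmap : ∀ (a : Γ) (V : Submodule K (Fin n → K)),
      (V.map (toLin' (rep a))).map (toLin' (rep a⁻¹)) = V := fun a V => by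
    rw [← Submodule.map_comp, hinv, Submodule.map_id]
  have hconj : ∀ (a : Γ) {V : Submodule K (Fin n → K)}, V ≠ ⊥ ∧ Stable rep N V →
      V.map (toLin' (rep a)) ≠ ⊥ ∧ Stable rep N (V.map (toLin' (rep a))) := by
    intro a V hV
    refine ⟨fun h0 => hV.1 ?_, fun g hg v hv => ?_⟩
    · rw [← hmap a V, h0, Submodule.map_bot]
    · obtain ⟨u, hu, rfl⟩ := hv
      refine ⟨toLin' (rep (a⁻¹ * g * a)) u, hV.2 _ ?_ u hu, ?_⟩
      · simpa using Subgroup.Normal.conj_mem ‹N.Normal› g hg a⁻¹
      · rw [← LinearMap.comp_apply, ← toLin'_mul, ← LinearMap.comp_apply, ← toLin'_mul, ← map_mul,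
          ← map_mul]
        simp [mul_assoc]
  have hS : Semi.Invariant rep (sSup atoms) := by
    intro a v hv
    rw [← toLin'_apply]
    refine (Submodule.map_le_iff_le_comap.1 ?_ : sSup atoms ≤ (sSup atoms).comap _) hv
    rw [sSup_eq_iSup, Submodule.map_iSup]
    refine iSup_le fun V => ?_
    rw [Submodule.map_iSup]
    refine iSup_le fun hV => le_iSup₂_of_le (V.map (toLin' (rep a))) ?_ le_rfl
    refine ⟨hconj a hV.1, fun X hX hXle => ?_⟩
    have h1 : X.map (toLin' (rep a⁻¹)) ≤ V := hmap a V ▸ Submodule.map_mono hXle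
    calc V.map (toLin' (rep a))
        ≤ (X.map (toLin' (rep a⁻¹))).map (toLin' (rep a)) :=
          Submodule.map_mono (hV.2 (hconj a⁻¹ hX) h1)
      _ = X := by simpa using hmap a⁻¹ X
  obtain ⟨D, hD, hDinv⟩ := hcr _ hS
  have htop : sSup atoms = ⊤ := by
    by_contra hne
    have hD0 : D ≠ ⊥ := fun h => hne (by simpa [h] using hD.sup_eq_top)
    obtain ⟨V, hVD, hV⟩ := exists_minimal_le_of_wellFoundedLT
      (fun X => X ≠ ⊥ ∧ Stable rep N X) D
      ⟨hD0, fun g _ v hv => by rw [toLin'_apply]; exact hDinv g v hv⟩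
    exact hV.1.1 (le_bot_iff.1 (hD.disjoint (le_sSup hV) hVD))
  obtain ⟨C, -, hC⟩ := exists_maximal_ge_of_wellFoundedGT
    (fun X => Disjoint W X ∧ Stable rep N X) ⊥
    ⟨disjoint_bot_right, fun g _ v hv => by simp [(Submodule.mem_bot K).1 hv]⟩
  refine ⟨C, ⟨hC.1.1, codisjoint_iff.2 (eq_top_iff.2 (htop ▸ sSup_le fun V hV => ?_))⟩, hC.1.2⟩
  by_contra hle
  have hne : (W ⊔ C) ⊓ V ≠ V := fun h => hle (h ▸ inf_le_left)
  have hdisj : Disjoint (W ⊔ C) V := disjoint_iff.2 (by_contra fun h0 => hne
    (le_antisymm inf_le_right (hV.2 ⟨h0, (hW.sup hC.1.2).inf hV.1.2⟩ inf_le_right)))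
  have := hC.2 ⟨Disjoint.disjoint_sup_right_of_disjoint_sup_left hC.1.1 hdisj,
    hC.1.2.sup hV.1.2⟩ le_sup_left
  exact hle ((le_sup_right.trans this).trans le_sup_right)

/-- On a subgroup of finite index the space is a sum of strongly irreducible subspaces. -/
theorem exists_strongly (hcr : Semi.Reducible rep) :
    ∀ (m : ℕ) (H : Subgroup Γ) (V : Submodule K (Fin n → K)), H.FiniteIndex → Stable rep H V →
      Module.finrank K V = m → ∃ L ≤ H, L.FiniteIndex ∧
        ∃ S : Finset (Submodule K (Fin n → K)), S.sup id = V ∧ ∀ U ∈ S, StronglyIrred rep L U := by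
  classical
  intro m
  induction m using Nat.strong_induction_on with
  | _ m ih =>
    intro H V hH hV hm
    by_cases hirr : StronglyIrred rep H V
    · exact ⟨H, le_rfl, hH, {V}, by simp, by simpa using hirr⟩
    simp only [StronglyIrred, hV, true_and, not_forall, not_or] at hirr
    obtain ⟨L, hLH, hL, W, hWV, hW, hW0, hWne⟩ := hirr
    obtain ⟨C, hC, hCN⟩ := exists_stable_compl hcr L.normalCore (hW.mono L.normalCore_le)
    have hN : L.normalCore ≤ H := L.normalCore_le.trans hLH
    have hC' : C ⊓ V < V := lt_of_le_of_ne inf_le_right fun h =>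
      hW0 (le_bot_iff.1 (hC.disjoint le_rfl (hWV.trans (inf_eq_right.1 h))))
    have hfin : L.normalCore.FiniteIndex := inferInstance
    obtain ⟨L₁, hL₁, hf₁, S₁, hS₁, hs₁⟩ := ih _
      (hm ▸ Submodule.finrank_lt_finrank_of_lt (lt_of_le_of_ne hWV hWne)) L.normalCore W hfin
      (hW.mono L.normalCore_le) rfl
    obtain ⟨L₂, hL₂, hf₂, S₂, hS₂, hs₂⟩ := ih _
      (hm ▸ Submodule.finrank_lt_finrank_of_lt hC') L.normalCore (C ⊓ V) hfin
      (hCN.inf (hV.mono hN)) rfl
    refine ⟨L₁ ⊓ L₂, (inf_le_left.trans hL₁).trans hN, inferInstance, S₁ ∪ S₂, ?_, fun U hU => ?_⟩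
    · rw [Finset.sup_union, hS₁, hS₂, ← sup_inf_assoc_of_le C hWV, hC.sup_eq_top, top_inf_eq]
    · rcases Finset.mem_union.1 hU with h | h
      · exact (hs₁ U h).mono inf_le_left
      · exact (hs₂ U h).mono inf_le_right

/-- The action of a subgroup on a stable subspace. -/
def onSub {H : Subgroup Γ} {V : Submodule K (Fin n → K)} (hV : Stable rep H V) :
    H →* Module.End K V where
  toFun h := (toLin' (rep h)).restrict (hV h h.2)
  map_one' := LinearMap.ext fun v => Subtype.ext (by simp)
  map_mul' a b := LinearMap.ext fun v => Subtype.ext (by simp [mulVec_mulVec])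

theorem onSub_coe {H : Subgroup Γ} {V : Submodule K (Fin n → K)} (hV : Stable rep H V) (h : H)
    (v : V) : ((onSub hV h v : V) : Fin n → K) = toLin' (rep h) v := rfl

/-- In coordinates a strongly irreducible subspace has only the trivial stable subspaces. -/
theorem irred_coord {H : Subgroup Γ} (hH : H.FiniteIndex) {V : Submodule K (Fin n → K)}
    (hs : StronglyIrred rep H V) {d : ℕ} (b : Module.Basis (Fin d) K V) (L : Subgroup H)
    (hL : L.FiniteIndex) (W : Submodule K (Fin d → K))
    (hW : ∀ h ∈ L, ∀ w ∈ W, LinearMap.toMatrix b b (onSub hs.1 h) *ᵥ w ∈ W) :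
    W = ⊥ ∨ W = ⊤ := by
  set φ : (Fin d → K) →ₗ[K] (Fin n → K) := V.subtype ∘ₗ b.equivFun.symm.toLinearMap with hφdef
  have hφ : Function.Injective φ := Subtype.val_injective.comp b.equivFun.symm.injective
  have hfin : (L.map H.subtype).FiniteIndex := ⟨by
    rw [Subgroup.index_map_subtype]; exact mul_ne_zero hL.index_ne_zero hH.index_ne_zero⟩
  have hst : Stable rep (L.map H.subtype) (W.map φ) := by
    rintro _ ⟨h, hh, rfl⟩ _ ⟨w, hw, rfl⟩
    refine ⟨_, hW h hh w hw, ?_⟩
    have e := LinearMap.toMatrix_mulVec_repr b b (onSub hs.1 h) (b.equivFun.symm w)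
    rw [show ⇑(b.repr (b.equivFun.symm w)) = w from b.equivFun.apply_symm_apply w] at e
    rw [e, ← Module.Basis.equivFun_apply, hφdef, LinearMap.comp_apply, LinearEquiv.coe_coe,
      LinearEquiv.symm_apply_apply]
    rfl
  rcases hs.2 _ (Subgroup.map_subtype_le _) hfin (W.map φ)
      (by rintro _ ⟨w, -, rfl⟩; exact Subtype.coe_prop _) hst with h | h
  · exact Or.inl (Submodule.map_injective_of_injective hφ (h.trans (Submodule.map_bot φ).symm))
  · refine Or.inr (eq_top_iff.2 fun x _ => ?_)
    obtain ⟨w, hw, hwx⟩ := h.ge (Subtype.coe_prop (b.equivFun.symm x))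
    rwa [← hφ hwx]

variable (rep) in
/-- Determinants on stable subspaces of subgroups of finite index are roots of unity. -/
def FiniteDets : Prop :=
  ∀ (H : Subgroup Γ), H.FiniteIndex → ∀ (W : Submodule K (Fin n → K)) (hW : Stable rep H W),
    ∀ h : H, IsOfFinOrder (LinearMap.det (onSub hW h))

/-- A finitely generated group with infinite image and determinant roots of unity has strongly
irreducible factors of degree at least two on a subgroup of finite index, with joint kernel in
that of the representation, whose entries determine those of the representation linearly. -/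
theorem exists_factors_linear [Group.FG Γ] (hcr : Semi.Reducible rep) (hinf : (Set.range rep).Infinite)
    (hdet : FiniteDets rep) :
    ∃ (H : Subgroup Γ), H.FiniteIndex ∧ ∃ (I : Type) (_ : Fintype I) (_ : Nonempty I)
      (m : I → ℕ) (σ : ∀ i, H →* SL(m i, K)), (∀ i, 2 ≤ m i) ∧
      (∀ i (L : Subgroup H), L.FiniteIndex → ∀ W : Submodule K (Fin (m i) → K),
        (∀ h ∈ L, ∀ w ∈ W, (σ i h : Matrix (Fin (m i)) (Fin (m i)) K) *ᵥ w ∈ W) →
          W = ⊥ ∨ W = ⊤) ∧
      (∀ h : H, (∀ i, σ i h = 1) → rep h = 1) ∧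
      ∃ (c : Fin n → Fin n → K) (w : ∀ i, Fin n → Fin n → Fin (m i) → Fin (m i) → K),
        ∀ (h : H) s t, rep h s t = c s t +
          ∑ i, ∑ a, ∑ b, w i s t a b * (σ i h : Matrix (Fin (m i)) (Fin (m i)) K) a b := by
  classical
  obtain ⟨H₀, -, hH₀, S, hsup, hS⟩ :=
    exists_strongly hcr _ ⊤ ⊤ inferInstance (fun _ _ _ _ => Submodule.mem_top) rfl
  have hker : ∀ U : S, ∃ M ≤ H₀, M.FiniteIndex ∧
      ∀ h (hh : h ∈ H₀), h ∈ M → LinearMap.det (onSub (hS U U.2).1 ⟨h, hh⟩) = 1 := by
    intro U
    set χ : H₀ →* Kˣ := (LinearMap.det.comp (onSub (hS U U.2).1)).toHomUnits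
    have : Group.FG χ.range := Group.fg_range χ
    have : Finite χ.range := CommGroup.finite_of_fg_isMulTorsion χ.range fun x => by
      obtain ⟨-, h, rfl⟩ := x
      refine isOfFinOrder_iff_pow_eq_one.2 ?_
      obtain ⟨k, hk, hk'⟩ := isOfFinOrder_iff_pow_eq_one.1 (hdet H₀ hH₀ U (hS U U.2).1 h)
      exact ⟨k, hk, Subtype.ext (Units.ext (by simpa [χ] using hk'))⟩
    have : χ.ker.FiniteIndex := Subgroup.finiteIndex_ker χ
    refine ⟨χ.ker.map H₀.subtype, Subgroup.map_subtype_le _, ⟨?_⟩, ?_⟩
    · rw [Subgroup.index_map_subtype]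
      exact mul_ne_zero Subgroup.FiniteIndex.index_ne_zero hH₀.index_ne_zero
    · rintro h hh ⟨x, hx, rfl⟩
      simpa [χ] using congrArg Units.val (MonoidHom.mem_ker.1 hx)
  choose M hMle hMfin hM using hker
  set H : Subgroup Γ := H₀ ⊓ ⨅ U, M U
  have hH : H.FiniteIndex := by
    have := Subgroup.finiteIndex_iInf hMfin
    infer_instance
  have hle : H ≤ H₀ := inf_le_left
  have hs : ∀ U ∈ S, StronglyIrred rep H U := fun U hU => (hS U hU).mono hle
  have hd : ∀ (U : S) (h : H), LinearMap.det (onSub (hs U U.2).1 h) = 1 := fun U h =>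
    hM U h (hle h.2) (iInf_le M U (Subgroup.mem_inf.1 h.2).2)
  -- an element acting trivially on the factors of degree at least two acts trivially
  have hfaith : ∀ h : H, (∀ U : S, 2 ≤ Module.finrank K U.1 → onSub (hs U U.2).1 h = 1) →
      rep h = 1 := by
    intro h hh
    have : (⊤ : Submodule K (Fin n → K)) ≤ LinearMap.eqLocus (toLin' (rep h)) LinearMap.id := by
      rw [← hsup]
      refine Finset.sup_le fun U hU v hv => ?_
      have h1 : onSub (hs U hU).1 h = 1 := by
        rcases Nat.lt_or_ge (Module.finrank K U) 2 with hlt | hge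
        · rcases Nat.le_one_iff_eq_zero_or_eq_one.1 (Nat.lt_succ_iff.1 hlt) with h0 | h1
          · have := Module.finrank_zero_iff.1 h0
            exact Subsingleton.elim _ _
          · obtain ⟨c, hc⟩ := ((onSub (hs U hU).1 h).existsUnique_eq_smul_id_of_finrank_eq_one h1).exists
            have := hd ⟨U, hU⟩ h
            rw [hc, LinearMap.det_smul, LinearMap.det_id, mul_one, h1, pow_one] at this
            rw [hc, this, one_smul]
            rfl
        · exact hh ⟨U, hU⟩ hge
      have := congrArg (fun f : Module.End K U => ((f ⟨v, hv⟩ : U) : Fin n → K)) h1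
      simpa [onSub_coe] using this
    refine toLin'.injective (LinearMap.ext fun v => ?_)
    rw [toLin'_one]
    exact this Submodule.mem_top
  let I := {U : S // 2 ≤ Module.finrank K U.1}
  have hI : Nonempty I := by
    by_contra hne
    have h1 : ∀ h : H, rep h = 1 := fun h => hfaith h fun U hU => (hne ⟨⟨U, hU⟩⟩).elim
    refine hinf ?_
    have : Fintype (Γ ⧸ H) := Subgroup.fintypeQuotientOfFiniteIndex
    refine ((Set.finite_range fun q : Γ ⧸ H => rep q.out)).subset ?_
    rintro _ ⟨g, rfl⟩
    refine ⟨QuotientGroup.mk g, ?_⟩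
    obtain ⟨h, hh⟩ := QuotientGroup.mk_out_eq_mul H g
    change rep (QuotientGroup.mk g : Γ ⧸ H).out = rep g
    rw [hh, map_mul, h1 h, mul_one]
  let b : ∀ i : I, Module.Basis (Fin (Module.finrank K i.1.1)) K i.1.1 :=
    fun i => Module.finBasis K i.1.1
  let σ : ∀ i : I, H →* SL(Module.finrank K i.1.1, K) := fun i =>
    { toFun := fun h => ⟨LinearMap.toMatrix (b i) (b i) (onSub (hs _ i.1.2).1 h),
        by rw [LinearMap.det_toMatrix]; exact hd i.1 h⟩
      map_one' := Subtype.ext (by
        show LinearMap.toMatrix (b i) (b i) (onSub (hs _ i.1.2).1 1) = 1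
        rw [map_one, LinearMap.toMatrix_one])
      map_mul' := fun x y => Subtype.ext (by
        show LinearMap.toMatrix (b i) (b i) (onSub (hs _ i.1.2).1 (x * y)) = _
        rw [map_mul, LinearMap.toMatrix_mul]
        rfl) }
  refine ⟨H, hH, I, inferInstance, hI, fun i => Module.finrank K i.1.1, σ, fun i => i.2, ?_, ?_, ?_⟩
  · exact fun i L hL W hW => irred_coord hH (hs _ i.1.2) (b i) L hL W hW
  · intro h hh
    refine hfaith h fun U hU => (LinearMap.toMatrix (b ⟨U, hU⟩) (b ⟨U, hU⟩)).injective ?_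
    rw [LinearMap.toMatrix_one]
    exact congrArg Subtype.val (hh ⟨U, hU⟩)
  · have hsmall : ∀ (U : S), ¬ 2 ≤ Module.finrank K U.1 → ∀ h : H,
        onSub (hs U U.2).1 h = 1 := by
      intro U hlt h
      rcases Nat.le_one_iff_eq_zero_or_eq_one.1 (Nat.lt_succ_iff.1 (not_le.1 hlt)) with h0 | h1
      · have := Module.finrank_zero_iff.1 h0
        exact Subsingleton.elim _ _
      · obtain ⟨c, hc⟩ :=
          ((onSub (hs U U.2).1 h).existsUnique_eq_smul_id_of_finrank_eq_one h1).exists
        have := hd U h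
        rw [hc, LinearMap.det_smul, LinearMap.det_id, mul_one, h1, pow_one] at this
        rw [hc, this, one_smul]
        rfl
    have hdec : ∀ t : Fin n, ∃ u : ∀ U : S, U.1, ∑ U, ((u U : U.1) : Fin n → K) = Pi.single t 1 := by
      intro t
      have hmem : (Pi.single t 1 : Fin n → K) ∈ ⨆ U ∈ S, U := by
        rw [← Finset.sup_eq_iSup, show (S.sup fun U => U) = S.sup id from rfl, hsup]
        exact Submodule.mem_top
      obtain ⟨μ, hμ⟩ := (Submodule.mem_iSup_finset_iff_exists_sum _ _).1 hmem
      exact ⟨fun U => μ U.1, by rw [← hμ]; exact Finset.sum_coe_sort S fun U => (μ U : Fin n → K)⟩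
    choose u hu using hdec
    refine ⟨fun s t => ∑ U : {U : S // ¬ 2 ≤ Module.finrank K U.1}, ((u t U.1 : _) : Fin n → K) s,
      fun i s t a c => ((b i a : i.1.1) : Fin n → K) s * (b i).repr (u t i.1) c, fun h s t => ?_⟩
    have e : ∀ i : I, ((onSub (hs _ i.1.2).1 h (u t i.1) : _) : Fin n → K) s =
        ∑ a, ∑ c, ((b i a : i.1.1) : Fin n → K) s * (b i).repr (u t i.1) c *
          (σ i h : Matrix _ _ K) a c := by
      intro i
      conv_lhs => rw [← (b i).sum_repr (onSub (hs _ i.1.2).1 h (u t i.1))]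
      simp only [AddSubmonoidClass.coe_finsetSum, SetLike.val_smul, Finset.sum_apply,
        Pi.smul_apply, smul_eq_mul]
      refine Finset.sum_congr rfl fun a _ => ?_
      rw [← LinearMap.toMatrix_mulVec_repr (b i) (b i), mulVec, dotProduct, Finset.sum_mul]
      refine Finset.sum_congr rfl fun c _ => ?_
      rw [show (σ i h : Matrix _ _ K) a c = LinearMap.toMatrix (b i) (b i) (onSub (hs _ i.1.2).1 h) a c from rfl]
      ring
    have h0 : rep h s t = ∑ U : S, ((onSub (hs U U.2).1 h (u t U) : _) : Fin n → K) s := by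
      simp only [onSub_coe]
      rw [← Finset.sum_apply, ← map_sum, hu, toLin'_apply, mulVec_single_one]
      rfl
    rw [h0, ← Fintype.sum_subtype_add_sum_subtype (fun U : S => 2 ≤ Module.finrank K U.1), add_comm]
    congr 1
    · exact Finset.sum_congr rfl fun U _ => by rw [hsmall U.1 U.2 h]; rfl
    · exact Finset.sum_congr rfl fun i _ => e i

/-- A finitely generated group with infinite image and determinant roots of unity has strongly
irreducible factors of degree at least two on a subgroup of finite index, with joint kernel in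
that of the representation. -/
theorem exists_factors [Group.FG Γ] (hcr : Semi.Reducible rep) (hinf : (Set.range rep).Infinite)
    (hdet : FiniteDets rep) :
    ∃ (H : Subgroup Γ), H.FiniteIndex ∧ ∃ (I : Type) (_ : Fintype I) (_ : Nonempty I)
      (m : I → ℕ) (σ : ∀ i, H →* SL(m i, K)), (∀ i, 2 ≤ m i) ∧
      (∀ i (L : Subgroup H), L.FiniteIndex → ∀ W : Submodule K (Fin (m i) → K),
        (∀ h ∈ L, ∀ w ∈ W, (σ i h : Matrix (Fin (m i)) (Fin (m i)) K) *ᵥ w ∈ W) →
          W = ⊥ ∨ W = ⊤) ∧
      ∀ h : H, (∀ i, σ i h = 1) → rep h = 1 := by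
  obtain ⟨H, hH, I, hI, hne, m, σ, hm, hirr, hker, -⟩ := exists_factors_linear hcr hinf hdet
  exact ⟨H, hH, I, hI, hne, m, σ, hm, hirr, hker⟩

end Vale.Agent.P165.EX.Red
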