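import Vale.Agent.P165.EX.Red.Strong

/-!
# Finitely many strongly irreducible representations with finite joint kernel

Each representation over algebraic numbers has proper places at which only finitely many of its
values have bounded entries. Together the places of all of them have finite boxes.
-/

namespace Vale.Agent.P165.EX.Red

open Matrix Multi
open scoped Matrix.Norms.Elementwise MatrixGroups

variable {K : Type} [Field K] [CharZero K] {Γ : Type} [Group Γ]

/-- Proper places with generic parts at which the values of bounded size are finitely many. -/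
theorem exists_places [Algebra.IsAlgebraic ℚ K] {n : ℕ} [Group.FG Γ] (ρ : Γ →* SL(n, K))
    (hs : Semi.Spanning ρ) (hp : Semi.PrimeClosure ρ)
    (_hcr : ∀ j ≤ n, Semi.Reducible (Semi.cmpRep (Semi.matRep ρ) j)) :
    ∃ (P : Type) (_ : Fintype P) (_ : Nonempty P) (k : P → Type)
      (_ : ∀ v, NontriviallyNormedField (k v)) (_ : ∀ v, ProperSpace (k v))
      (σ : ∀ v, Γ →* SL(n, k v)) (S : ∀ v, Semi.Parts (σ v)), (∀ v, (S v).Generic) ∧
      ∀ R : ℝ, ((fun g => ρ g) '' {g : Γ | ∀ v,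
        ‖(σ v g : Matrix (Fin n) (Fin n) (k v))‖ ≤ R}).Finite := by
  classical
  obtain ⟨m, hm0, K₀, hK₀, hA⟩ := Fg.exists_integral ρ
  obtain ⟨ρ₀, hρ₀, -⟩ := Fg.exists_descend (K₀ := K₀) (algebraMap K₀ K) ρ
    fun g i j => ⟨⟨_, (hA g i j).1⟩, rfl⟩
  let P : Type := Σ v : Option {q : ℕ // q ∈ m.primeFactors}, (K₀ →ₐ[ℚ] Fg.RatPlace m v)
  have : Fintype P := inferInstance
  have hne : Nonempty P := ⟨⟨none, IsAlgClosed.lift⟩⟩
  choose k hk hkp φ hφ using fun v : P => Fg.exists_proper m v.1 v.2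
  have hparts : ∀ v, ∃ T : Semi.Parts ((SpecialLinearGroup.map (φ v)).comp ρ₀), T.Generic :=
    fun v => Semi.parts_of_map (algebraMap K₀ K) (φ v) ρ₀ ρ _
      (fun g => Matrix.ext fun i j => (hρ₀ g i j).symm) (fun _ => rfl) hs hp
  choose T hT using hparts
  refine ⟨P, inferInstance, hne, k, hk, hkp, fun v => (SpecialLinearGroup.map (φ v)).comp ρ₀, T, hT,
    fun R => ?_⟩
  have hbox := Fg.finite_integral_box (R := invRing m) (F := ℚ) (K := K₀) (Fg.RatPlace m)
    (Fg.invRing_box m) R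
  set D : Finset K₀ := hbox.toFinset
  have hmat : {M : Matrix (Fin n) (Fin n) K₀ | ∀ i j, M i j ∈ D}.Finite :=
    ((Fintype.piFinset fun _ : Fin n => Fintype.piFinset fun _ : Fin n => D).finite_toSet).subset
      fun M hM => by simpa [Fintype.mem_piFinset] using! hM
  refine ((hmat.image fun M => M.map (algebraMap K₀ K)).preimage
    (f := fun A : SL(n, K) => (A : Matrix (Fin n) (Fin n) K))
    Subtype.val_injective.injOn).subset ?_
  rintro _ ⟨g, hg, rfl⟩
  refine ⟨(ρ₀ g : Matrix (Fin n) (Fin n) K₀), fun i j => hbox.mem_toFinset.2 ⟨?_, fun v σ => ?_⟩,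
    Matrix.ext fun i j => hρ₀ g i j⟩
  · refine (isIntegral_algHom_iff (IsScalarTower.toAlgHom (invRing m) K₀ K)
      (algebraMap K₀ K).injective).1 ?_
    change IsIntegral (invRing m) (algebraMap K₀ K ((ρ₀ g : Matrix (Fin n) (Fin n) K₀) i j))
    rw [hρ₀ g i j]
    exact (hA g i j).2
  · rw [← hφ ⟨v, σ⟩]
    exact (norm_entry_le_entrywise_sup_norm (((SpecialLinearGroup.map (φ ⟨v, σ⟩)).comp ρ₀) g :
      Matrix (Fin n) (Fin n) (k ⟨v, σ⟩)) (i := i) (j := j)).trans (hg ⟨v, σ⟩)

/-- Finitely many representations of degree at least two with full span and prime closure and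
finite joint kernel give a phase, given complete reducibility. -/
theorem nonuniquePhase_family (hcw : ChevalleyWeyl K) (halg : ∀ x : K, IsAlgebraic ℤ x) {I : Type}
    [Fintype I] [Nonempty I] (n : I → ℕ) (hn : ∀ i, 2 ≤ n i) [Group.FG Γ]
    (ρ : ∀ i, Γ →* SL(n i, K)) (hker : {g : Γ | ∀ i, ρ i g = 1}.Finite)
    (hs : ∀ i, Semi.Spanning (ρ i)) (hp : ∀ i, Semi.PrimeClosure (ρ i)) :
    SG.NonuniquePhase Γ := by
  classical
  have : Algebra.IsAlgebraic ℚ K :=
    ⟨fun x => (IsFractionRing.isAlgebraic_iff ℤ ℚ K).1 (halg x)⟩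
  have := Fg.infinite_of_spanning (hn (Classical.arbitrary I)) (ρ _) (hs _) (hp _)
  choose P hP hPne k hk hkp σ S hS hfin using fun i =>
    exists_places (ρ i) (hs i) (hp i) (hcw _ _ _ (hs i) (hp i))
  have : Nonempty (Σ i, P i) := ⟨⟨Classical.arbitrary I, Classical.choice (hPne _)⟩⟩
  refine Semi.nonuniquePhase_of_parts (P := Σ i, P i) (k := fun q => k q.1 q.2)
    (d := fun q => n q.1) (fun q => Nat.zero_lt_two.trans_le (hn q.1)) (fun q => σ q.1 q.2)
    (fun q => S q.1 q.2) (fun q => hS q.1 q.2) fun R => ?_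
  have hfib : ∀ x ∈ Set.univ.pi (fun i => (fun g => ρ i g) '' {g : Γ | ∀ v,
      ‖(σ i v g : Matrix (Fin (n i)) (Fin (n i)) (k i v))‖ ≤ R}),
      {g : Γ | ∀ i, ρ i g = x i}.Finite := by
    intro x _
    rcases Set.eq_empty_or_nonempty {g : Γ | ∀ i, ρ i g = x i} with h | ⟨a, ha⟩
    · rw [h]; exact Set.finite_empty
    refine (hker.image (a * ·)).subset fun g hg => ⟨a⁻¹ * g, fun i => ?_, by simp⟩
    rw [map_mul, map_inv, ha i, hg i, inv_mul_cancel]
  refine ((Set.Finite.pi fun i => hfin i R).biUnion hfib).subset fun g hg => ?_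
  simp only [Set.mem_iUnion, Set.mem_ofPred_eq]
  exact ⟨fun i => ρ i g, fun i _ => ⟨g, fun v => hg ⟨i, v⟩, rfl⟩, fun i => rfl⟩

omit [CharZero K] in
/-- A prime closure passes to smaller subgroups of finite index. -/
theorem prime_restrict {n : ℕ} (ρ : Γ →* SL(n, K)) {H G : Subgroup Γ} [H.FiniteIndex] (hHG : H ≤ G)
    (hG : Semi.PrimeClosure (ρ.comp G.subtype)) : Semi.PrimeClosure (ρ.comp H.subtype) := by
  classical
  have hP : (vanish ρ (G : Set Γ)).IsPrime := by
    refine ⟨fun h => ?_, fun {f₁ f₂} h => ?_⟩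
    · have := (mem_vanish ρ).1 (h ▸ Submodule.mem_top : (1 : MvPolynomial _ K) ∈ vanish ρ (G : Set Γ))
        1 (one_mem G)
      simp at this
    · rcases hG f₁ f₂ (fun g => by
        have := (mem_vanish ρ).1 h g g.2
        rw [map_mul, mul_eq_zero] at this
        exact this) with h | h
      · exact Or.inl ((mem_vanish ρ).2 fun g hg => h ⟨g, hg⟩)
      · exact Or.inr ((mem_vanish ρ).2 fun g hg => h ⟨g, hg⟩)
  have : Fintype (Γ ⧸ H) := Subgroup.fintypeQuotientOfFiniteIndex
  set reps : Finset Γ := ((Finset.univ : Finset (Γ ⧸ H)).image Quotient.out).filter fun c => c ∈ G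
  have hle : (reps.inf fun c => vanish ρ ((c * ·) '' (H : Set Γ))) ≤ vanish ρ (G : Set Γ) := by
    intro f hf
    refine (mem_vanish ρ).2 fun x hx => ?_
    have h0 : (QuotientGroup.mk x : Γ ⧸ H).out⁻¹ * x ∈ H :=
      QuotientGroup.eq.1 (Quotient.out_eq _)
    have hc : (QuotientGroup.mk x : Γ ⧸ H).out ∈ G := by
      have := mul_mem hx (inv_mem (hHG h0))
      simpa using this
    refine (mem_vanish ρ).1 (Finset.inf_le (f := fun c => vanish ρ ((c * ·) '' (H : Set Γ)))
      (Finset.mem_filter.2 ⟨Finset.mem_image.2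
        ⟨(QuotientGroup.mk x : Γ ⧸ H), Finset.mem_univ _, rfl⟩, hc⟩) hf) x ⟨_, h0, ?_⟩
    simp
  obtain ⟨c, hc, hcle⟩ := (Ideal.IsPrime.inf_le' hP).1 hle
  have hsub : (c * ·) '' (H : Set Γ) ⊆ (G : Set Γ) := by
    rintro _ ⟨h, hh, rfl⟩
    exact mul_mem (Finset.mem_filter.1 hc).2 (hHG hh)
  have heq : vanish ρ ((c * ·) '' (H : Set Γ)) = vanish ρ (G : Set Γ) :=
    le_antisymm hcle (vanish_anti ρ hsub)
  have hH : (vanish ρ (H : Set Γ)).IsPrime := by
    have e : vanish ρ (H : Set Γ) = (vanish ρ (G : Set Γ)).comap (leftT ρ c⁻¹).toRingHom := by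
      rw [← heq, ← vanish_comap ρ (eval_leftT ρ c⁻¹), image_translate, inv_mul_cancel, image_one]
    rw [e]
    infer_instance
  intro f₁ f₂ h
  rcases hH.mem_or_mem (x := f₁) (y := f₂) ((mem_vanish ρ).2 fun g hg => by
    rw [map_mul, mul_eq_zero]; exact h ⟨g, hg⟩) with h | h
  · exact Or.inl fun g => (mem_vanish ρ).1 h g g.2
  · exact Or.inr fun g => (mem_vanish ρ).1 h g g.2

/-- One subgroup of finite index with full span and prime closure in all representations. -/
theorem exists_common_prime {I : Type} [Fintype I] {n : I → ℕ} (ρ : ∀ i, Γ →* SL(n i, K))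
    (h : ∀ i, StronglySpanning (ρ i)) : ∃ H : Subgroup Γ, H.FiniteIndex ∧
      (∀ i, Semi.Spanning ((ρ i).comp H.subtype)) ∧
      ∀ i, Semi.PrimeClosure ((ρ i).comp H.subtype) := by
  classical
  choose G hG hGp using fun i => exists_primeClosure (ρ i)
  have hH : (⨅ i, G i).FiniteIndex := Subgroup.finiteIndex_iInf fun i => hG i
  refine ⟨⨅ i, G i, hH, fun i => spanning_restrict (h i) _, fun i => ?_⟩
  exact prime_restrict (ρ i) (iInf_le _ i) (hGp i)

/-- Finitely many strongly irreducible representations of degree at least two over algebraic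
numbers with finite joint kernel give a phase, given complete reducibility. -/
theorem phaseQT_family (hcw : ChevalleyWeyl K) (halg : ∀ x : K, IsAlgebraic ℤ x) {I : Type}
    [Fintype I] [Nonempty I] (n : I → ℕ) (hn : ∀ i, 2 ≤ n i) [Group.FG Γ]
    (ρ : ∀ i, Γ →* SL(n i, K)) (hker : {g : Γ | ∀ i, ρ i g = 1}.Finite)
    (hs : ∀ i, StronglySpanning (ρ i)) : PhaseQT Γ := by
  obtain ⟨H, hH, hs', hp⟩ := exists_common_prime ρ hs
  exact phaseQT_of_finiteIndex H (phaseQT_of_nonuniquePhase (nonuniquePhase_family hcw halg n hn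
    (fun i => (ρ i).comp H.subtype) (hker.preimage Subtype.val_injective.injOn) hs' hp))

end Vale.Agent.P165.EX.Red
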