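import Vale.Agent.P165.EX.Red.Chevalley
import Vale.Agent.P165.EX.Red.Family
import Vale.Agent.P165.EX.Red.Factors
import Vale.Agent.P165.EX.Chev.Burnside
import Vale.Agent.P165.EX.Semi.Main
import Vale.Agent.P165.GL2.Linear

/-!
# Discrete groups with completely reducible image over proper fields of characteristic zero

No finite generation and no algebraicity: finitely many strongly irreducible representations over
proper fields of characteristic zero with finite joint boxes give a phase, and so does a discrete
completely reducible complex representation whose factors have determinants of finite order.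
-/

namespace Vale.Agent.P165.EX.Red

open Matrix
open scoped MatrixGroups

variable {P : Type} [Fintype P] [Nonempty P] {k : P → Type} [∀ v, NontriviallyNormedField (k v)]
  [∀ v, ProperSpace (k v)] [∀ v, CharZero (k v)] {d : P → ℕ} {Γ : Type} [Group Γ]

/-- Absolutely irreducible images of connected closure and finite boxes give a phase. -/
theorem nonuniquePhase_discrete (ρ : ∀ v, Γ →* SL(d v, k v)) (hd : ∀ v, 2 ≤ d v)
    (hs : ∀ v, Semi.Spanning (ρ v)) (hp : ∀ v, Semi.PrimeClosure (ρ v)) (hfin : FiniteBoxes ρ) :
    SG.NonuniquePhase Γ := by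
  exact Semi.nonuniquePhase_of_semisimple ρ
    (fun v => ⟨hd v, irreducible_of_spanning (ρ v) (hs v), hp v⟩) hfin

/-- Strongly irreducible representations over proper fields of characteristic zero with finite
boxes give a phase. -/
theorem phaseQT_discrete_strong (ρ : ∀ v, Γ →* SL(d v, k v)) (hd : ∀ v, 2 ≤ d v)
    (hs : ∀ v, StronglySpanning (ρ v)) (hfin : FiniteBoxes ρ) : PhaseQT Γ := by
  classical
  choose G hG hGp using fun v => exists_primeClosure (ρ v)
  have hH : (⨅ v, G v).FiniteIndex := Subgroup.finiteIndex_iInf hG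
  refine phaseQT_of_finiteIndex (⨅ v, G v) (phaseQT_of_nonuniquePhase (nonuniquePhase_discrete
    (fun v => (ρ v).comp (⨅ v, G v).subtype) hd (fun v => spanning_restrict (hs v) _)
    (fun v => prime_restrict (ρ v) (iInf_le _ v) (hGp v)) fun R => ?_))
  exact ((hfin R).preimage Subtype.val_injective.injOn).subset fun g hg => hg

/-- A completely reducible complex representation with finitely many elements in every box,
infinite image and determinants of finite order on the factors gives a phase. -/
theorem phaseQT_discrete_complex {n : ℕ} (rep : Γ →* Matrix (Fin n) (Fin n) ℂ)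
    (hcr : Semi.Reducible rep) (hdet : FiniteDets rep) (hinf : (Set.range rep).Infinite)
    (hfin : ∀ R : ℝ, {g : Γ | ∀ i j, ‖rep g i j‖ ≤ R}.Finite) : PhaseQT Γ := by
  refine phaseQT_of_nonuniquePhase (GL2.nonuniquePhase_of_fg fun hfg => ?_)
  obtain ⟨H, hH, I, hI, hne, m, σ, hm, hirr, -, c, w, hlin⟩ := exists_factors_linear hcr hinf hdet
  refine nonuniquePhase_of_phaseQT (phaseQT_of_finiteIndex H
    (phaseQT_discrete_strong (k := fun _ : I => ℂ) (fun i => σ i) hm (fun i L hL => ?_)
      fun R => ?_))
  · have h := Chev.spanning_of_irreducible ((σ i).comp L.subtype)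
      fun W hW => hirr i L hL W fun g hg v hv => hW ⟨g, hg⟩ v hv
    rw [Semi.Spanning] at h
    rw [← h]
    refine congrArg (Submodule.span ℂ) (Set.ext fun A => ⟨?_, ?_⟩)
    · rintro ⟨g, hg, rfl⟩
      exact ⟨⟨g, hg⟩, rfl⟩
    · rintro ⟨g, rfl⟩
      exact ⟨g, g.2, rfl⟩
  · classical
    set B : ℝ := ∑ s, ∑ t, (‖c s t‖ + ∑ i, ∑ a, ∑ b, ‖w i s t a b‖ * max R 0) with hB
    refine ((hfin B).preimage Subtype.val_injective.injOn).subset fun h hh s t => ?_
    rw [hlin h s t]
    refine (norm_add_le _ _).trans (le_trans (add_le_add le_rfl ?_)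
      ((Finset.single_le_sum (f := fun t => ‖c s t‖ + ∑ i, ∑ a, ∑ b, ‖w i s t a b‖ * max R 0)
        (fun _ _ => by positivity) (Finset.mem_univ t)).trans
      (Finset.single_le_sum (f := fun s => ∑ t,
          (‖c s t‖ + ∑ i, ∑ a, ∑ b, ‖w i s t a b‖ * max R 0))
        (fun _ _ => by positivity) (Finset.mem_univ s))))
    refine norm_sum_le_of_le _ fun i _ => norm_sum_le_of_le _ fun a _ =>
      norm_sum_le_of_le _ fun b _ => ?_
    rw [norm_mul]
    exact mul_le_mul_of_nonneg_left ((hh i a b).trans (le_max_left _ _)) (norm_nonneg _)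

end Vale.Agent.P165.EX.Red
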