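import Vale.Agent.P165.EX.Red.Bridge
import Vale.Agent.P165.EX.Chev.Main

/-!
# Chevalley and Weyl in characteristic zero

Over an algebraically closed field the theorem is in `Chev.Main`; full span, prime closure and
nondegeneracy of the trace forms carry it to every field of characteristic zero.
-/

namespace Vale.Agent.P165.EX.Red

open Matrix
open scoped MatrixGroups

/-- Full span and prime closure make every exterior power completely reducible. -/
theorem chevalleyWeyl (K : Type) [Field K] [CharZero K] : ChevalleyWeyl K := by
  intro n Δ _ σ hs hp j hj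
  have hcl : ChevalleyWeyl (AlgebraicClosure K) :=
    chevalleyWeyl_of fun _ hn _ _ _ hirr hp j =>
      Chev.reducible_cmp (Nat.zero_lt_two.trans_le hn) hirr hp j
  let f : K →+* AlgebraicClosure K := algebraMap K (AlgebraicClosure K)
  let σ' : Δ →* SL(n, AlgebraicClosure K) := (SpecialLinearGroup.map f).comp σ
  have hmap : ∀ g, (σ' g : Matrix (Fin n) (Fin n) (AlgebraicClosure K)) =
      (σ g : Matrix (Fin n) (Fin n) K).map f := fun _ => rfl
  exact Semi.reducible_of_nondeg _ (Semi.nondeg_comap _ f _ (Semi.cmpRep_map f σ σ' hmap j)
    (Semi.nondeg_of_reducible _ (hcl n Δ σ' (Semi.spanning_map f σ σ' hmap hs)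
      (Semi.prime_map f σ σ' hmap hp) j hj)))

end Vale.Agent.P165.EX.Red
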