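import Vale.Agent.P165.EX.Red.Assembly
import Vale.Agent.P165.EX.Red.Chevalley
import Vale.Agent.P165.EX.Red.Factors
import Vale.Agent.P165.EX.Chev.Burnside

/-!
# Finitely generated groups with semisimple closure over algebraic numbers

No hypothesis on exterior powers or on connectedness is needed: Clifford, Burnside, Chevalley and
Weyl are proved.
-/

namespace Vale.Agent.P165.EX.Red

open Matrix

variable {K : Type} [Field K] {n : ℕ} {Γ : Type} [Group Γ]

/-- Completely reducible with infinite image, and the determinants on stable subspaces of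
subgroups of finite index are roots of unity: the elementary form of a semisimple closure. -/
def SemisimpleClosure (rep : Γ →* Matrix (Fin n) (Fin n) K) : Prop :=
  Semi.Reducible rep ∧ (Set.range rep).Infinite ∧ FiniteDets rep

/-- A finitely generated group with a finite-kernel representation over algebraic numbers with
semisimple closure has a phase. -/
theorem phaseQT_semisimple [CharZero K] [IsAlgClosed K] (halg : ∀ x : K, IsAlgebraic ℤ x)
    [Group.FG Γ] (rep : Γ →* Matrix (Fin n) (Fin n) K) (hker : {g : Γ | rep g = 1}.Finite)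
    (h : SemisimpleClosure rep) : PhaseQT Γ := by
  obtain ⟨H, hH, I, _, _, m, σ, hm, hirr, hjoint⟩ := exists_factors h.1 h.2.1 h.2.2
  exact phaseQT_of_factors (fun _ _ _ _ σ hσ => Chev.spanning_of_irreducible σ hσ) (chevalleyWeyl K)
    halg rep hker H m hm σ
    (fun i L hL W hW => hirr i L hL W fun g hg w hw => hW ⟨g, hg⟩ w hw) hjoint

/-- A semisimple closure passes to normal subgroups of finite index. -/
theorem semisimpleClosure_restrict {rep : Γ →* Matrix (Fin n) (Fin n) K} (h : SemisimpleClosure rep)
    (N : Subgroup Γ) [N.Normal] [N.FiniteIndex] : SemisimpleClosure (rep.comp N.subtype) := by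
  classical
  obtain ⟨hcr, hinf, hdet⟩ := h
  refine ⟨fun W hW => ?_, fun hfin => hinf ?_, fun L hL W hW g => ?_⟩
  · obtain ⟨W', hc, hW'⟩ := exists_stable_compl hcr N (W := W) fun g hg v hv => by
      rw [toLin'_apply]; exact hW ⟨g, hg⟩ v hv
    exact ⟨W', hc, fun g v hv => by
      have := hW' g g.2 v hv
      rwa [toLin'_apply] at this⟩
  · have : Fintype (Γ ⧸ N) := Subgroup.fintypeQuotientOfFiniteIndex
    refine ((Set.finite_range fun q : Γ ⧸ N => rep q.out).mul hfin).subset ?_
    rintro _ ⟨g, rfl⟩
    refine ⟨_, ⟨QuotientGroup.mk g, rfl⟩, _,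
      ⟨⟨(QuotientGroup.mk g : Γ ⧸ N).out⁻¹ * g, QuotientGroup.eq.1 (Quotient.out_eq _)⟩, rfl⟩, ?_⟩
    change rep _ * rep _ = rep g
    rw [← map_mul]
    exact congrArg rep (mul_inv_cancel_left _ g)
  · have : (L.map N.subtype).FiniteIndex := by
      refine ⟨?_⟩
      rw [Subgroup.index_map_subtype]
      exact mul_ne_zero hL.index_ne_zero Subgroup.FiniteIndex.index_ne_zero
    have hW2 : Stable rep (L.map N.subtype) W := by
      rintro _ ⟨x, hx, rfl⟩ v hv
      exact hW x hx v hv
    exact hdet _ this W hW2 ⟨(g : N), ⟨(g : N), g.2, rfl⟩⟩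

/-- A phase passes along isomorphisms. -/
theorem phaseQT_of_equiv {Δ Δ' : Type} [Group Δ] [Group Δ'] (e : Δ ≃* Δ') (h : PhaseQT Δ) :
    PhaseQT Δ' := by
  intro V G hc hf Φ hfree R cover
  refine h V G hc hf (Φ.comp e.toMonoidHom)
    (fun x v hv => e.injective ((hfree (e x) v hv).trans (map_one e).symm)) R fun v => ?_
  obtain ⟨g, hg⟩ := cover v
  exact ⟨e.symm g, by simpa using hg⟩

/-- Every subgroup of finite index then has a phase too. -/
theorem phaseQT_semisimple_finiteIndex [CharZero K] [IsAlgClosed K]
    (halg : ∀ x : K, IsAlgebraic ℤ x) [Group.FG Γ] (rep : Γ →* Matrix (Fin n) (Fin n) K)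
    (hker : {g : Γ | rep g = 1}.Finite) (h : SemisimpleClosure rep) (H : Subgroup Γ)
    [H.FiniteIndex] : PhaseQT H := by
  let N := H.normalCore
  have : N.FiniteIndex := inferInstance
  have hNH : N ≤ H := H.normalCore_le
  have hN : PhaseQT N := phaseQT_semisimple halg (rep.comp N.subtype)
    (hker.preimage Subtype.val_injective.injOn) (semisimpleClosure_restrict h N)
  have : (N.subgroupOf H).FiniteIndex := inferInstance
  exact phaseQT_of_finiteIndex (N.subgroupOf H) (phaseQT_of_equiv (Subgroup.subgroupOfEquivOfLe hNH).symm hN)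

end Vale.Agent.P165.EX.Red
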