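import Vale.Agent.P165.Pad.Main

/-!
# A phase passes to groups containing one with finite index
-/

namespace Vale.Agent.P165.EX.Red

open Finset

/-- A free action with finitely many orbits restricts to one of every subgroup of finite index. -/
theorem phaseQT_of_finiteIndex {Γ : Type} [Group Γ] (H : Subgroup Γ) [H.FiniteIndex]
    (hH : PhaseQT H) : PhaseQT Γ := by
  classical
  intro V G hc hf Φ hfree R cover
  have : Fintype (Γ ⧸ H) := Subgroup.fintypeQuotientOfFiniteIndex
  refine hH V G hc hf (Φ.comp H.subtype) (fun h v hv => Subtype.ext (hfree h v hv))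
    ((univ ×ˢ R).image fun q : (Γ ⧸ H) × V => Φ q.1.out⁻¹ q.2) fun v => ?_
  obtain ⟨g, hg⟩ := cover v
  refine ⟨⟨(QuotientGroup.mk g : Γ ⧸ H).out⁻¹ * g, QuotientGroup.eq.1 (Quotient.out_eq _)⟩,
    mem_image.2 ⟨(QuotientGroup.mk g, Φ g v), mem_product.2 ⟨mem_univ _, hg⟩, ?_⟩⟩
  simp [map_mul, RelIso.mul_apply]

end Vale.Agent.P165.EX.Red
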