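import Vale.Agent.P165.EX.Red.Prime
import Vale.Agent.P165.EX.Red.FiniteIndex
import Vale.Agent.P165.EX.Fg.SemiMain

/-!
# Finitely generated groups with a strongly irreducible representation

If the image of every subgroup of finite index spans all matrices, one of them has a prime closure
and still spans. With complete reducibility for such representations the phase follows, and it
passes to the whole group.
-/

namespace Vale.Agent.P165.EX.Red

open Matrix
open scoped MatrixGroups

variable {K : Type} [Field K] {n : ℕ} {Γ : Type} [Group Γ]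

/-- The image of every subgroup of finite index spans all matrices. -/
def StronglySpanning (ρ : Γ →* SL(n, K)) : Prop :=
  ∀ H : Subgroup Γ, H.FiniteIndex →
    Submodule.span K ((fun g => (ρ g : Matrix (Fin n) (Fin n) K)) '' H) = ⊤

/-- A full span and a prime closure make every exterior power completely reducible. -/
def ChevalleyWeyl (K : Type) [Field K] : Prop :=
  ∀ (n : ℕ) (Δ : Type) [Group Δ] (σ : Δ →* SL(n, K)), Semi.Spanning σ → Semi.PrimeClosure σ →
    ∀ j ≤ n, Semi.Reducible (Semi.cmpRep (Semi.matRep σ) j)

theorem spanning_restrict {ρ : Γ →* SL(n, K)} (h : StronglySpanning ρ) (H : Subgroup Γ)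
    [H.FiniteIndex] : Semi.Spanning (ρ.comp H.subtype) := by
  rw [Semi.Spanning, ← h H inferInstance]
  refine congrArg (Submodule.span K) (Set.ext fun A => ⟨?_, ?_⟩)
  · rintro ⟨g, rfl⟩
    exact ⟨g, g.2, rfl⟩
  · rintro ⟨g, hg, rfl⟩
    exact ⟨⟨g, hg⟩, rfl⟩

/-- Strong irreducibility survives on subgroups of finite index. -/
theorem stronglySpanning_restrict {ρ : Γ →* SL(n, K)} (h : StronglySpanning ρ) (H : Subgroup Γ)
    [H.FiniteIndex] : StronglySpanning (ρ.comp H.subtype) := by
  intro L hL
  have : (L.map H.subtype).FiniteIndex := by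
    refine ⟨?_⟩
    rw [Subgroup.index_map_subtype]
    exact mul_ne_zero hL.index_ne_zero Subgroup.FiniteIndex.index_ne_zero
  rw [← h (L.map H.subtype) this, Subgroup.coe_map, Set.image_image]
  rfl

/-- Every finitely generated group with a finite-kernel strongly irreducible representation over
algebraic numbers has a phase, given complete reducibility. -/
theorem phaseQT_fg_strong [CharZero K] (hcw : ChevalleyWeyl K) (halg : ∀ x : K, IsAlgebraic ℤ x)
    (hn : 2 ≤ n) [Group.FG Γ] (ρ : Γ →* SL(n, K)) (hker : {g : Γ | ρ g = 1}.Finite)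
    (hs : StronglySpanning ρ) : PhaseQT Γ := by
  obtain ⟨H, hH, hp⟩ := exists_primeClosure ρ
  have hs' := spanning_restrict hs H
  exact phaseQT_of_finiteIndex H (Fg.phaseQT_fg_semisimple halg hn (ρ.comp H.subtype)
    (hker.preimage Subtype.val_injective.injOn) hs' hp (hcw n H _ hs' hp))

end Vale.Agent.P165.EX.Red
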