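import Vale.Agent.P165.EX.Red.Chevalley
import Vale.Agent.P165.EX.Join.Classes

/-!
# Absolutely irreducible images with connected closure
-/

namespace Vale.Agent.P165.EX.Red

open Matrix
open scoped MatrixGroups

variable {k : Type} [NontriviallyNormedField k] {n : ℕ} {Γ : Type} [Group Γ]

/-- Full span and connected closure give a semisimple image, in every characteristic. -/
theorem semisimpleImage_of_spanning (hn : 2 ≤ n) (ρ : Γ →* SL(n, k)) (hs : Semi.Spanning ρ)
    (hp : Semi.PrimeClosure ρ) : SemisimpleImage ρ :=
  ⟨hn, irreducible_of_spanning ρ hs, hp⟩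

end Vale.Agent.P165.EX.Red
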