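import Vale.Agent.P165.EX.Red.Strong

/-!
# Complete reducibility from irreducible representations with prime closure
-/

namespace Vale.Agent.P165.EX.Red

open Matrix
open scoped MatrixGroups

variable {K : Type} [Field K] {n : ℕ} {Γ : Type} [Group Γ]

/-- A representation with full span leaves only the trivial subspaces invariant. -/
theorem irreducible_of_spanning (ρ : Γ →* SL(n, K)) (hs : Semi.Spanning ρ)
    (W : Submodule K (Fin n → K)) (hW : Semi.Invariant (Semi.matRep ρ) W) : W = ⊥ ∨ W = ⊤ := by
  refine or_iff_not_imp_left.2 fun hne => eq_top_iff.2 fun v _ => ?_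
  obtain ⟨w, hw, hw0⟩ := Submodule.exists_mem_ne_zero_of_ne_bot hne
  obtain ⟨i, hi⟩ : ∃ i, w i ≠ 0 := Function.ne_iff.1 hw0
  have hall : ∀ A : Matrix (Fin n) (Fin n) K, A *ᵥ w ∈ W := fun A => by
    have hA : A ∈ Submodule.span K (Set.range fun g => (ρ g : Matrix (Fin n) (Fin n) K)) :=
      hs ▸ Submodule.mem_top
    induction hA using Submodule.span_induction with
    | mem A hA =>
      obtain ⟨g, rfl⟩ := hA
      exact hW g w hw
    | zero => simp
    | add A B _ _ hA hB => rw [add_mulVec]; exact add_mem hA hB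
    | smul c A _ hA => rw [smul_mulVec]; exact W.smul_mem c hA
  have h := hall (vecMulVec v (Pi.single i (w i)⁻¹))
  rwa [vecMulVec_mulVec, single_dotProduct, inv_mul_cancel₀ hi, MulOpposite.op_one, one_smul] at h

/-- A representation on a line is completely reducible. -/
theorem reducible_subsingleton {ι : Type} [Fintype ι] [DecidableEq ι] [Subsingleton ι]
    (rep : Γ →* Matrix ι ι K) : Semi.Reducible rep := by
  intro W _
  have htriv : W = ⊥ ∨ W = ⊤ := by
    refine or_iff_not_imp_left.2 fun hne => eq_top_iff.2 fun v _ => ?_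
    obtain ⟨w, hw, hw0⟩ := Submodule.exists_mem_ne_zero_of_ne_bot hne
    obtain ⟨i, hi⟩ : ∃ i, w i ≠ 0 := Function.ne_iff.1 hw0
    have : v = (v i / w i) • w := funext fun l => by
      rw [Subsingleton.elim l i, Pi.smul_apply, smul_eq_mul, div_mul_cancel₀ _ hi]
    exact this ▸ W.smul_mem _ hw
  rcases htriv with rfl | rfl
  · exact ⟨⊤, isCompl_bot_top, fun _ _ _ => Submodule.mem_top⟩
  · exact ⟨⊥, isCompl_top_bot, fun g w hw => by
      rw [(Submodule.mem_bot K).1 hw, mulVec_zero]; exact zero_mem _⟩

/-- Complete reducibility for irreducible representations of degree at least two with prime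
closure gives it for all representations with full span and prime closure. -/
theorem chevalleyWeyl_of
    (h : ∀ (n : ℕ), 2 ≤ n → ∀ (Δ : Type) [Group Δ] (σ : Δ →* SL(n, K)),
      (∀ W, Semi.Invariant (Semi.matRep σ) W → W = ⊥ ∨ W = ⊤) → Semi.PrimeClosure σ →
        ∀ j, Semi.Reducible (Semi.cmpRep (Semi.matRep σ) j)) : ChevalleyWeyl K := by
  intro n Δ _ σ hs hp j _
  rcases le_or_gt 2 n with hn | hn
  · exact h n hn Δ σ (irreducible_of_spanning σ hs) hp j
  · have : Subsingleton (Fin n) := Fin.subsingleton_iff_le_one.2 (by omega)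
    have : Subsingleton (Sub n j) := by
      refine ⟨fun s t => Subtype.ext (Finset.eq_of_subset_of_card_le (fun a ha => ?_) ?_)⟩
      · obtain ⟨b, hb⟩ : t.1.Nonempty := by
          have h0 : 0 < s.1.card := Finset.card_pos.2 ⟨a, ha⟩
          rw [s.2, ← t.2] at h0
          exact Finset.card_pos.1 h0
        exact Subsingleton.elim b a ▸ hb
      · exact le_of_eq (t.2.trans s.2.symm)
    exact reducible_subsingleton _

end Vale.Agent.P165.EX.Red
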