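import Vale.Agent.P165.EX.Red.Family
import Vale.Agent.P165.EX.Red.Bridge

/-!
# Phases from irreducible factors on a subgroup of finite index
-/

namespace Vale.Agent.P165.EX.Red

open Matrix
open scoped MatrixGroups

variable {K : Type} [Field K] [CharZero K] {Γ : Type} [Group Γ]

/-- Factors of a subgroup of finite index, irreducible on all its subgroups of finite index, whose
joint kernel is in the finite kernel of a representation, give a phase. -/
theorem phaseQT_of_factors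
    (hspan : ∀ (n : ℕ), 2 ≤ n → ∀ (Δ : Type) [Group Δ] (σ : Δ →* SL(n, K)),
      (∀ W, Semi.Invariant (Semi.matRep σ) W → W = ⊥ ∨ W = ⊤) → Semi.Spanning σ)
    (hcw : ChevalleyWeyl K) (halg : ∀ x : K, IsAlgebraic ℤ x) [Group.FG Γ] {n : ℕ}
    (rep : Γ →* Matrix (Fin n) (Fin n) K) (hker : {g : Γ | rep g = 1}.Finite)
    (H : Subgroup Γ) [H.FiniteIndex] {I : Type} [Fintype I] [Nonempty I] (m : I → ℕ)
    (hm : ∀ i, 2 ≤ m i) (σ : ∀ i, H →* SL(m i, K))
    (hirr : ∀ i (L : Subgroup H), L.FiniteIndex → ∀ W,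
      Semi.Invariant (Semi.matRep ((σ i).comp L.subtype)) W → W = ⊥ ∨ W = ⊤)
    (hjoint : ∀ h : H, (∀ i, σ i h = 1) → rep h = 1) : PhaseQT Γ := by
  refine phaseQT_of_finiteIndex H (phaseQT_family hcw halg m hm σ
    ((hker.preimage Subtype.val_injective.injOn).subset fun h hh => hjoint h hh) fun i L hL => ?_)
  have h := hspan (m i) (hm i) L ((σ i).comp L.subtype) (hirr i L hL)
  rw [Semi.Spanning] at h
  rw [← h]
  refine congrArg (Submodule.span K) (Set.ext fun A => ⟨?_, ?_⟩)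
  · rintro ⟨g, hg, rfl⟩
    exact ⟨⟨g, hg⟩, rfl⟩
  · rintro ⟨g, rfl⟩
    exact ⟨g, g.2, rfl⟩

/-- An irreducible representation of the subgroups of finite index gives a phase. -/
theorem phaseQT_irreducible
    (hspan : ∀ (n : ℕ), 2 ≤ n → ∀ (Δ : Type) [Group Δ] (σ : Δ →* SL(n, K)),
      (∀ W, Semi.Invariant (Semi.matRep σ) W → W = ⊥ ∨ W = ⊤) → Semi.Spanning σ)
    (hcw : ChevalleyWeyl K) (halg : ∀ x : K, IsAlgebraic ℤ x) [Group.FG Γ] {n : ℕ} (hn : 2 ≤ n)
    (ρ : Γ →* SL(n, K)) (hker : {g : Γ | ρ g = 1}.Finite)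
    (hirr : ∀ L : Subgroup Γ, L.FiniteIndex → ∀ W,
      Semi.Invariant (Semi.matRep (ρ.comp L.subtype)) W → W = ⊥ ∨ W = ⊤) : PhaseQT Γ := by
  refine phaseQT_fg_strong hcw halg hn ρ hker fun L hL => ?_
  have h := hspan n hn L (ρ.comp L.subtype) (hirr L hL)
  rw [Semi.Spanning] at h
  rw [← h]
  refine congrArg (Submodule.span K) (Set.ext fun A => ⟨?_, ?_⟩)
  · rintro ⟨g, hg, rfl⟩
    exact ⟨⟨g, hg⟩, rfl⟩
  · rintro ⟨g, rfl⟩
    exact ⟨g, g.2, rfl⟩

end Vale.Agent.P165.EX.Red
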