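import Vale.Agent.P165.EX.Red.Factors
import Vale.Agent.P165.EX.Red.Assembly
import Vale.Agent.P165.EX.Semi.SplitOrth

/-!
# The split orthogonal groups satisfy the hypotheses of the reducible clause

In every field of characteristic zero each subgroup of finite index of the elementary integer group
of a split form acts irreducibly, so the group meets every hypothesis of `exists_factors`; it is
not dense in the special linear group, as it preserves the form.
-/

namespace Vale.Agent.P165.EX.Red

open Matrix Finset Semi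
open scoped MatrixGroups

variable {d : ℕ} {σ : Fin d → Fin d} {K : Type} [Field K]

variable (σ K) in
/-- The defining representation over a field. -/
def splitRep : splitGroup σ →* Matrix (Fin d) (Fin d) K where
  toFun g := (g.1 : Matrix (Fin d) (Fin d) ℤ).map (Int.castRingHom K)
  map_one' := Matrix.map_one _ (map_zero _) (map_one _)
  map_mul' a b := Matrix.map_mul

variable [CharZero K]

theorem splitRep_injective : Function.Injective (splitRep σ K) := fun _ _ h =>
  Subtype.ext (Subtype.ext (Matrix.map_injective Int.cast_injective h))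

theorem strong_split (hσ : Function.Involutive σ) (hfix : ∀ i, σ i ≠ i) (hd : 3 ≤ d)
    (H : Subgroup (splitGroup σ)) [H.FiniteIndex] (W : Submodule K (Fin d → K))
    (hW : Stable (splitRep σ K) H W) : W = ⊥ ∨ W = ⊤ := by
  have hX : ∀ a b, IsRoot σ a b → ∀ w ∈ W,
      w b • Pi.single a (1 : K) - w (σ a) • Pi.single (σ b) 1 ∈ W := by
    intro a b h w hw
    let u : ℤ → splitGroup σ := fun t => ⟨_, mem_splitGroup hσ hfix h t⟩
    obtain ⟨s, t, hst, hmem⟩ : ∃ s t : ℤ, s ≠ t ∧ u s * (u t)⁻¹ ∈ H := by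
      obtain ⟨s, t, hst, he⟩ :=
        Finite.exists_ne_map_eq_of_infinite fun t : ℤ => (QuotientGroup.mk (u t)⁻¹ : splitGroup σ ⧸ H)
      exact ⟨s, t, hst, by simpa using QuotientGroup.eq.1 he⟩
    have hinv : u s * (u t)⁻¹ = u (s - t) := by
      rw [mul_inv_eq_iff_eq_mul]
      refine Subtype.ext (Subtype.ext ?_)
      change rootMat σ a b s = rootMat σ a b (s - t) * rootMat σ a b t
      rw [rootMat_mul hfix hσ h, sub_add_cancel]
    have h1 := W.sub_mem (hW _ (hinv ▸ hmem) w hw) hw
    change (rootMat σ a b (s - t)).map (Int.castRingHom K) *ᵥ w - w ∈ W at h1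
    rw [rootMat_map, rootMat, add_mulVec, one_mulVec, add_sub_cancel_left, smul_mulVec] at h1
    have h2 := (Submodule.smul_mem_iff W (show Int.castRingHom K (s - t) ≠ 0 by
      simpa [sub_eq_zero] using hst)).1 h1
    rw [rootDir, sub_mulVec] at h2
    convert h2 using 2 <;> ext i <;> simp [Matrix.mulVec, dotProduct, Matrix.single_apply,
      Pi.single_apply, ite_and, Finset.sum_ite_eq, eq_comm]
  rw [or_iff_not_imp_left]
  intro hne
  obtain ⟨v, hv, hv0⟩ := Submodule.exists_mem_ne_zero_of_ne_bot hne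
  obtain ⟨c, hc⟩ := Function.ne_iff.1 hv0
  have flip : ∀ c, ∀ w ∈ W, w c ≠ 0 → Pi.single (σ c) (1 : K) ∈ W := by
    intro c w hw hwc
    obtain ⟨x, -, hx⟩ : ∃ x ∈ (univ : Finset (Fin d)), x ∉ ({c, σ c} : Finset (Fin d)) :=
      exists_mem_notMem_of_card_lt_card
        ((Finset.card_le_two (a := c) (b := σ c)).trans_lt (by simp; omega))
    simp only [mem_insert, mem_singleton, not_or] at hx
    have r1 : IsRoot σ x c := ⟨hx.1, hx.2⟩
    have r2 : IsRoot σ (σ c) x :=
      ⟨fun e => hx.2 e.symm, fun e => hx.1 (hσ.injective e).symm⟩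
    have h2 := hX _ _ r2 _ (hX _ _ r1 w hw)
    refine (Submodule.smul_mem_iff W hwc).1 ?_
    convert h2 using 1
    ext i
    simp [hσ c, hx.2, Ne.symm hx.1, (hfix c).symm]
  have pair : ∀ c, Pi.single c (1 : K) ∈ W → Pi.single (σ c) (1 : K) ∈ W :=
    fun c h => flip c _ h (by simp)
  have h0 : Pi.single (σ c) (1 : K) ∈ W := flip c v hv hc
  refine eq_top_iff.2 fun u _ => ?_
  rw [pi_eq_sum_univ' u]
  refine W.sum_mem fun a _ => W.smul_mem _ ?_
  rcases eq_or_ne a (σ c) with rfl | ha
  · exact h0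
  rcases eq_or_ne a c with rfl | ha'
  · simpa [hσ a] using pair _ h0
  have r : IsRoot σ a (σ c) := ⟨ha, by rwa [hσ c]⟩
  have h1 := hX _ _ r _ h0
  simpa [hσ c, Pi.single_eq_of_ne fun h => ha' (hσ.injective h)] using h1

theorem fg_split (hσ : Function.Involutive σ) (hfix : ∀ i, σ i ≠ i) : Group.FG (splitGroup σ) := by
  classical
  rw [Group.fg_iff_subgroup_fg, Subgroup.fg_iff]
  set T : Set SL(d, ℤ) := {g | ∃ a b, IsRoot σ a b ∧
    (g : Matrix (Fin d) (Fin d) ℤ) = rootMat σ a b 1}
  refine ⟨T, le_antisymm (Subgroup.closure_mono fun g hg => ?_) ?_, ?_⟩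
  · obtain ⟨a, b, h, hg⟩ := hg
    exact ⟨a, b, h, 1, hg⟩
  · refine (Subgroup.closure_le _).2 ?_
    rintro g ⟨a, b, h, t, hg⟩
    let u : SL(d, ℤ) := ⟨_, rootMat_det hσ hfix h 1⟩
    have hu : u ∈ Subgroup.closure T := Subgroup.subset_closure ⟨a, b, h, rfl⟩
    let v : ℤ → SL(d, ℤ) := fun t => ⟨rootMat σ a b t, rootMat_det hσ hfix h t⟩
    have hv : ∀ s t, v s * v t = v (s + t) := fun s t => Subtype.ext (rootMat_mul hfix hσ h s t)
    have hpow : ∀ t : ℤ, u ^ t = v t := fun t => by
      induction t using Int.induction_on with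
      | zero => exact Subtype.ext (by simp [v, rootMat])
      | succ i ih => rw [_root_.zpow_add_one, ih]; exact hv _ 1
      | pred i ih =>
        rw [_root_.zpow_sub_one, ih, mul_inv_eq_iff_eq_mul]
        exact ((hv _ 1).trans (congrArg v (sub_add_cancel _ _))).symm
    rw [show g = v t from Subtype.ext hg, ← hpow t]
    exact (Subgroup.closure T).zpow_mem hu t
  · refine (Set.finite_range fun p : {p : Fin d × Fin d // IsRoot σ p.1 p.2} =>
      (⟨rootMat σ p.1.1 p.1.2 1, rootMat_det hσ hfix p.2 1⟩ : SL(d, ℤ))).subset ?_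
    rintro g ⟨a, b, h, hg⟩
    exact ⟨⟨(a, b), h⟩, Subtype.ext hg.symm⟩

/-- All hypotheses of the reducible clause hold for the split orthogonal groups. -/
theorem split_hypotheses (m : ℕ) (hm : 2 ≤ m) :
    let rep := splitRep (halfSwap m) K
    Group.FG (splitGroup (halfSwap m)) ∧ Semi.Reducible rep ∧ (Set.range rep).Infinite ∧
      {g | rep g = 1}.Finite ∧ FiniteDets rep := by
  intro rep
  have hσ := halfSwap_involutive m
  have hfix := halfSwap_ne m
  have hd : 3 ≤ m + m := by omega
  have := splitGroup_infinite hσ hfix hd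
  refine ⟨fg_split hσ hfix, fun W hW => ?_, Set.infinite_range_of_injective splitRep_injective,
    Set.Subsingleton.finite fun a ha b hb => splitRep_injective (ha.trans hb.symm),
    fun H hH W hW h => ?_⟩
  · rcases strong_split hσ hfix hd ⊤ W (fun g _ w hw => by rw [toLin'_apply]; exact hW g w hw)
      with rfl | rfl
    · exact ⟨⊤, isCompl_bot_top, fun _ _ _ => Submodule.mem_top⟩
    · exact ⟨⊥, isCompl_top_bot, fun g w hw => by
        rw [(Submodule.mem_bot K).1 hw, mulVec_zero]; exact zero_mem _⟩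
  · rcases strong_split hσ hfix hd H W hW with rfl | rfl
    · rw [LinearMap.det_eq_one_of_subsingleton]; exact IsOfFinOrder.one
    · let e := LinearEquiv.ofTop (⊤ : Submodule K (Fin (m + m) → K)) rfl
      have : LinearMap.det (onSub hW h) = 1 := by
        rw [← LinearMap.det_conj (onSub hW h) e, show (e : _ →ₗ[K] _) ∘ₗ onSub hW h ∘ₗ
          (e.symm : _ →ₗ[K] _) = toLin' (rep h.1) from LinearMap.ext fun _ => rfl,
          LinearMap.det_toLin']
        change ((h.1.1 : Matrix (Fin (m + m)) (Fin (m + m)) ℤ).map (Int.castRingHom K)).det = 1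
        rw [← RingHom.mapMatrix_apply, ← RingHom.map_det, h.1.1.2, map_one]
      rw [this]; exact IsOfFinOrder.one

/-- The factors and the assembly compose. -/
theorem phaseQT_of_reducible
    (hspan : ∀ (n : ℕ), 2 ≤ n → ∀ (Δ : Type) [Group Δ] (σ : Δ →* SL(n, K)),
      (∀ W, Semi.Invariant (Semi.matRep σ) W → W = ⊥ ∨ W = ⊤) → Semi.Spanning σ)
    (hcw : ChevalleyWeyl K) (halg : ∀ x : K, IsAlgebraic ℤ x) {Γ : Type} [Group Γ] [Group.FG Γ]
    {n : ℕ} (rep : Γ →* Matrix (Fin n) (Fin n) K) (hker : {g : Γ | rep g = 1}.Finite)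
    (hcr : Semi.Reducible rep) (hinf : (Set.range rep).Infinite) (hdet : FiniteDets rep) :
    PhaseQT Γ := by
  obtain ⟨H, hH, I, _, _, m, τ, hm, hirr, hjoint⟩ := exists_factors hcr hinf hdet
  exact phaseQT_of_factors hspan hcw halg rep hker H m hm τ
    (fun i L hL W hW => hirr i L hL W fun h hh w hw => hW ⟨h, hh⟩ w hw) hjoint

end Vale.Agent.P165.EX.Red
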