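import Vale.Agent.P165.EX.Semi.Transfer
import Mathlib

/-!
# A subgroup of finite index with irreducible closure

The minimal primes over the vanishing ideal of the image cut the group into finitely many pieces,
which translations permute. The subgroup fixing all pieces has a prime vanishing ideal.
-/

namespace Vale.Agent.P165.EX.Red

open Matrix MvPolynomial
open scoped MatrixGroups

variable {k : Type} [Field k] {n : ℕ} {Γ : Type} [Group Γ] (ρ : Γ →* SL(n, k))

/-- The point of an element. -/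
def pt (g : Γ) : Fin n × Fin n → k := fun e => (ρ g : Matrix (Fin n) (Fin n) k) e.1 e.2

/-- The polynomials vanishing on a set of elements. -/
noncomputable def vanish (S : Set Γ) : Ideal (MvPolynomial (Fin n × Fin n) k) :=
  vanishingIdeal k (pt ρ '' S)

theorem mem_vanish {S : Set Γ} {f : MvPolynomial (Fin n × Fin n) k} :
    f ∈ vanish ρ S ↔ ∀ g ∈ S, eval (pt ρ g) f = 0 := by
  simp [vanish, aeval_eq_eval]

theorem vanish_anti {S T : Set Γ} (h : S ⊆ T) : vanish ρ T ≤ vanish ρ S :=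
  vanishingIdeal_anti_mono (Set.image_mono h)

instance vanish_singleton (g : Γ) : (vanish ρ {g}).IsPrime := by
  rw [vanish, Set.image_singleton]
  infer_instance

/-- Left translation on polynomials. -/
noncomputable def leftT (g : Γ) :
    MvPolynomial (Fin n × Fin n) k →ₐ[k] MvPolynomial (Fin n × Fin n) k :=
  aeval fun e => ∑ b, C ((ρ g : Matrix (Fin n) (Fin n) k) e.1 b) * X (b, e.2)

/-- Right translation on polynomials. -/
noncomputable def rightT (g : Γ) :
    MvPolynomial (Fin n × Fin n) k →ₐ[k] MvPolynomial (Fin n × Fin n) k :=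
  aeval fun e => ∑ b, X (e.1, b) * C ((ρ g : Matrix (Fin n) (Fin n) k) b e.2)

theorem eval_leftT (g x : Γ) (f : MvPolynomial (Fin n × Fin n) k) :
    eval (pt ρ x) (leftT ρ g f) = eval (pt ρ (g * x)) f := by
  rw [leftT, ← aeval_eq_eval, ← AlgHom.comp_apply, comp_aeval, ← aeval_eq_eval]
  refine congrArg (fun F : Fin n × Fin n → k => aeval F f) (funext fun e => ?_)
  simp [pt, Matrix.mul_apply]

theorem eval_rightT (g x : Γ) (f : MvPolynomial (Fin n × Fin n) k) :
    eval (pt ρ x) (rightT ρ g f) = eval (pt ρ (x * g)) f := by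
  rw [rightT, ← aeval_eq_eval, ← AlgHom.comp_apply, comp_aeval, ← aeval_eq_eval]
  refine congrArg (fun F : Fin n × Fin n → k => aeval F f) (funext fun e => ?_)
  simp [pt, Matrix.mul_apply]

theorem vanish_comap {φ : MvPolynomial (Fin n × Fin n) k →ₐ[k] MvPolynomial (Fin n × Fin n) k}
    {T : Γ → Γ} (h : ∀ x f, eval (pt ρ x) (φ f) = eval (pt ρ (T x)) f) (S : Set Γ) :
    vanish ρ (T '' S) = (vanish ρ S).comap φ.toRingHom := by
  ext f
  rw [Ideal.mem_comap, mem_vanish, mem_vanish]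
  simp only [Set.forall_mem_image, AlgHom.toRingHom_eq_coe, RingHom.coe_coe, h]

theorem image_translate (a b : Γ) (S : Set Γ) :
    (a * ·) '' ((b * ·) '' S) = (a * b * ·) '' S := by
  rw [Set.image_image]
  simp only [mul_assoc]

theorem image_one (S : Set Γ) : ((1 : Γ) * ·) '' S = S := by
  simp only [one_mul, Set.image_id']

/-- The piece of the group on which a prime vanishes. -/
def piece (P : Ideal (MvPolynomial (Fin n × Fin n) k)) : Set Γ := {g | P ≤ vanish ρ {g}}

/-- The minimal primes over the vanishing ideal of the whole image. -/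
noncomputable def comps : Finset (Ideal (MvPolynomial (Fin n × Fin n) k)) :=
  (vanish ρ Set.univ).finite_minimalPrimes_of_isNoetherianRing.toFinset

theorem mem_comps {P : Ideal (MvPolynomial (Fin n × Fin n) k)} :
    P ∈ comps ρ ↔ P ∈ (vanish ρ Set.univ).minimalPrimes :=
  Set.Finite.mem_toFinset _

theorem piece_cover (g : Γ) : ∃ P ∈ comps ρ, g ∈ piece ρ P := by
  obtain ⟨P, hP, hle⟩ := Ideal.exists_minimalPrimes_le (J := vanish ρ {g})
    (vanish_anti ρ (Set.subset_univ _))
  exact ⟨P, (mem_comps ρ).2 hP, hle⟩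

theorem vanish_piece {P : Ideal (MvPolynomial (Fin n × Fin n) k)} (hP : P ∈ comps ρ) :
    vanish ρ (piece ρ P) = P := by
  have hV : ∀ Q, Q ≤ vanish ρ (piece ρ Q) := fun Q f hf =>
    (mem_vanish ρ).2 fun g hg => (mem_vanish ρ).1 (hg hf) g rfl
  refine le_antisymm ?_ (hV P)
  have hP' := (mem_comps ρ).1 hP
  have hle : ((comps ρ).inf fun Q => vanish ρ (piece ρ Q)) ≤ P := fun f hf => hP'.1.2 (by
    refine (mem_vanish ρ).2 fun g _ => ?_
    obtain ⟨Q, hQ, hg⟩ := piece_cover ρ g
    exact (mem_vanish ρ).1 (Finset.inf_le (f := fun Q => vanish ρ (piece ρ Q)) hQ hf) g hg)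
  obtain ⟨Q, hQ, hQP⟩ := (Ideal.IsPrime.inf_le' hP'.1.1).1 hle
  have hQP' : Q ≤ P := (hV Q).trans hQP
  rwa [le_antisymm hQP' (hP'.2 ((mem_comps ρ).1 hQ).1 hQP')] at hQP

theorem piece_translate (g : Γ) {P : Ideal (MvPolynomial (Fin n × Fin n) k)} (hP : P ∈ comps ρ) :
    ∃ Q ∈ comps ρ, (g * ·) '' piece ρ P ⊆ piece ρ Q := by
  set J := vanish ρ ((g * ·) '' piece ρ P) with hJ
  have hJp : J.IsPrime := by
    rw [hJ, vanish_comap ρ (eval_leftT ρ g), vanish_piece ρ hP]
    have := ((mem_comps ρ).1 hP).1.1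
    infer_instance
  obtain ⟨Q, hQ, hle⟩ := Ideal.exists_minimalPrimes_le (J := J)
    (vanish_anti ρ (Set.subset_univ _) : vanish ρ Set.univ ≤ J)
  exact ⟨Q, (mem_comps ρ).2 hQ, fun x hx =>
    hle.trans (vanish_anti ρ (Set.singleton_subset_iff.2 hx))⟩

/-- A subgroup of finite index maps every piece to itself. -/
theorem exists_fix : ∃ H : Subgroup Γ, H.FiniteIndex ∧
    ∀ h ∈ H, ∀ P ∈ comps ρ, ∀ x ∈ piece ρ P, h * x ∈ piece ρ P := by
  classical
  set pieces : Finset (Set Γ) := (comps ρ).image (piece ρ)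
  have hperm : ∀ g : Γ, ∀ S ∈ pieces, (g * ·) '' S ∈ pieces := by
    intro g S hS
    obtain ⟨P, hP, rfl⟩ := Finset.mem_image.1 hS
    obtain ⟨Q, hQ, hsub⟩ := piece_translate ρ g hP
    obtain ⟨R, hR, hsub'⟩ := piece_translate ρ g⁻¹ hQ
    have hback : piece ρ P ⊆ piece ρ R := fun x hx =>
      hsub' ⟨g * x, hsub ⟨x, hx, rfl⟩, by simp⟩
    have hRP : R ≤ P := by
      rw [← vanish_piece ρ hR, ← vanish_piece ρ hP]
      exact vanish_anti ρ hback
    have hPR : P = R := le_antisymm (((mem_comps ρ).1 hP).2 ((mem_comps ρ).1 hR).1 hRP) hRP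
    refine Finset.mem_image.2 ⟨Q, hQ, (Set.Subset.antisymm hsub fun x hx => ?_).symm⟩
    exact ⟨g⁻¹ * x, hPR.symm ▸ hsub' ⟨x, hx, rfl⟩, by simp⟩
  let act : Γ →* Equiv.Perm {S // S ∈ pieces} :=
    { toFun := fun g => ⟨fun S => ⟨_, hperm g S.1 S.2⟩, fun S => ⟨_, hperm g⁻¹ S.1 S.2⟩,
        fun S => Subtype.ext (by
          change (g⁻¹ * ·) '' ((g * ·) '' S.1) = S.1
          rw [image_translate, inv_mul_cancel, image_one]),
        fun S => Subtype.ext (by
          change (g * ·) '' ((g⁻¹ * ·) '' S.1) = S.1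
          rw [image_translate, mul_inv_cancel, image_one])⟩
      map_one' := Equiv.ext fun S => Subtype.ext (image_one S.1)
      map_mul' := fun a b => Equiv.ext fun S => Subtype.ext (image_translate a b S.1).symm }
  refine ⟨act.ker, Subgroup.finiteIndex_ker act, fun h hh P hP x hx => ?_⟩
  have e := congrArg (fun π : Equiv.Perm {S // S ∈ pieces} =>
    ((π ⟨piece ρ P, Finset.mem_image_of_mem _ hP⟩ : {S // S ∈ pieces}) : Set Γ))
    (MonoidHom.mem_ker.1 hh)
  have : (h * ·) '' piece ρ P = piece ρ P := e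
  exact this ▸ ⟨x, hx, rfl⟩

/-- Some subgroup of finite index has a prime vanishing ideal. -/
theorem exists_primeClosure :
    ∃ H : Subgroup Γ, H.FiniteIndex ∧ Semi.PrimeClosure (ρ.comp H.subtype) := by
  classical
  obtain ⟨H, hHfin, hfix⟩ := exists_fix ρ
  obtain ⟨P, hP, -⟩ := piece_cover ρ 1
  have : Fintype (Γ ⧸ H) := Subgroup.fintypeQuotientOfFiniteIndex
  set reps : Finset Γ := ((Finset.univ : Finset (Γ ⧸ H)).image fun q => (q.out)⁻¹).filter fun c => c ∈ piece ρ P
  have hcos : (reps.inf fun c => vanish ρ ((· * c) '' (H : Set Γ))) ≤ P := by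
    intro f hf
    rw [← vanish_piece ρ hP]
    refine (mem_vanish ρ).2 fun x hx => ?_
    set c : Γ := ((QuotientGroup.mk x⁻¹ : Γ ⧸ H).out)⁻¹
    have hmemH : x * c⁻¹ ∈ H := by
      have h0 := QuotientGroup.eq.1
        (Quotient.out_eq (QuotientGroup.mk x⁻¹ : Γ ⧸ H)).symm
      simpa [c] using h0
    have hc : c ∈ piece ρ P := by
      have := hfix (x * c⁻¹)⁻¹ (inv_mem hmemH) P hP x hx
      simpa [mul_assoc] using this
    refine (mem_vanish ρ).1 (Finset.inf_le (f := fun c => vanish ρ ((· * c) '' (H : Set Γ)))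
      (Finset.mem_filter.2 ⟨Finset.mem_image.2
        ⟨(QuotientGroup.mk x⁻¹ : Γ ⧸ H), Finset.mem_univ _, rfl⟩, hc⟩) hf) x ?_
    refine ⟨x * c⁻¹, hmemH, ?_⟩
    change x * c⁻¹ * c = x
    exact inv_mul_cancel_right x c
  obtain ⟨c, hc, hcP⟩ := (Ideal.IsPrime.inf_le' ((mem_comps ρ).1 hP).1.1).1 hcos
  have hsub : (· * c) '' (H : Set Γ) ⊆ piece ρ P := by
    rintro _ ⟨h, hh, rfl⟩
    exact hfix h hh P hP c (Finset.mem_filter.1 hc).2
  have heq : vanish ρ ((· * c) '' (H : Set Γ)) = P :=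
    le_antisymm hcP (by rw [← vanish_piece ρ hP]; exact vanish_anti ρ hsub)
  have hH : vanish ρ (H : Set Γ) = P.comap (rightT ρ c⁻¹).toRingHom := by
    rw [← heq, ← vanish_comap ρ (eval_rightT ρ c⁻¹)]
    refine congrArg (vanish ρ) ?_
    rw [Set.image_image]
    simp only [mul_inv_cancel_right, Set.image_id']
  have hprime : (vanish ρ (H : Set Γ)).IsPrime := by
    rw [hH]
    have := ((mem_comps ρ).1 hP).1.1
    infer_instance
  refine ⟨H, inferInstance, fun f₁ f₂ h => ?_⟩
  have hmul : f₁ * f₂ ∈ vanish ρ (H : Set Γ) := (mem_vanish ρ).2 fun g hg => by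
    rw [map_mul]
    rcases h ⟨g, hg⟩ with h | h
    · exact mul_eq_zero_of_left h _
    · exact mul_eq_zero_of_right _ h
  rcases hprime.mem_or_mem hmul with h | h
  · exact Or.inl fun g => (mem_vanish ρ).1 h g g.2
  · exact Or.inr fun g => (mem_vanish ρ).1 h g g.2

end Vale.Agent.P165.EX.Red
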