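import Vale.Agent.P165.EX.Red.Strong
import Vale.Agent.P165.EX.Chev.Burnside
import Mathlib.GroupTheory.FiniteAbelian.Basic

/-!
# A strongly irreducible factor unless a subgroup of finite index has solvable image

Induction on stable subspaces; the scalars are removed by a homomorphism of roots of the
determinant on a subgroup of finite index.
-/

namespace Vale.Agent.P165.EX.Red

open Matrix
open scoped MatrixGroups

variable {K : Type} [Field K] {Γ : Type} [Group Γ]

/-- The image of a subgroup is solvable: a term of its derived series acts trivially. -/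
def SolvableOn {M : Type} [Monoid M] (ρ : Γ →* M) (H : Subgroup Γ) : Prop :=
  ∃ k : ℕ, ∀ h ∈ derivedSeries H k, ρ (h : Γ) = 1

theorem derived_mem_succ {G : Type} [Group G] (k : ℕ) {g : G} (h : g ∈ derivedSeries G (k + 1)) :
    g ∈ derivedSeries G k :=
  Subgroup.commutator_le_left _ _ h

theorem derived_antitone {G : Type} [Group G] {j k : ℕ} (hjk : j ≤ k) {g : G}
    (h : g ∈ derivedSeries G k) : g ∈ derivedSeries G j := by
  induction hjk with
  | refl => exact h
  | step _ ih => exact ih (derived_mem_succ _ h)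

/-- Group elements map into a commutative monoid: the first derived term acts trivially. -/
theorem solvableOn_of_comm {M : Type} [Monoid M] (ρ : Γ →* M)
    (h : ∀ a b : Γ, ρ a * ρ b = ρ b * ρ a) (H : Subgroup Γ) : SolvableOn ρ H := by
  refine ⟨1, fun x hx => ?_⟩
  have hle : derivedSeries H 1 ≤ (ρ.comp H.subtype).toHomUnits.ker := by
    rw [derivedSeries_one, commutator_def, Subgroup.commutator_le]
    intro a _ b _
    rw [MonoidHom.mem_ker, map_commutatorElement, commutatorElement_eq_one_iff_mul_comm]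
    exact Units.ext (h a b)
  exact congrArg Units.val (MonoidHom.mem_ker.1 (hle hx))

/-- A homomorphism of `m`th roots of a character on a subgroup of finite index. -/
theorem exists_root [IsAlgClosed K] [Group.FG Γ] (δ : Γ →* Kˣ) {m : ℕ} (hm : 0 < m) :
    ∃ H : Subgroup Γ, H.FiniteIndex ∧ ∃ χ : H →* Kˣ, ∀ h : H, χ h ^ m = δ h := by
  classical
  have : Group.FG δ.range := Group.fg_range δ
  obtain ⟨ι, j, _, _, p, hp, e, ⟨E⟩⟩ :=
    CommGroup.equiv_free_prod_prod_multiplicative_zmod δ.range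
  have : ∀ i, NeZero (p i ^ e i) := fun i => ⟨pow_ne_zero _ (hp i).ne_zero⟩
  let f : Γ →* (j → Multiplicative ℤ) × ((i : ι) → Multiplicative (ZMod (p i ^ e i))) :=
    E.toMonoidHom.comp δ.rangeRestrict
  let τ := (MonoidHom.snd _ _).comp f
  refine ⟨τ.ker, inferInstance, ?_⟩
  choose r hr using fun x : j => IsAlgClosed.exists_pow_nat_eq
    (((E.symm (Pi.mulSingle x (Multiplicative.ofAdd 1), 1) : δ.range) : Kˣ) : K) hm
  have hr0 : ∀ x, r x ≠ 0 := fun x h => by
    have := hr x
    rw [h, zero_pow hm.ne'] at this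
    exact Units.ne_zero _ this.symm
  let ψ : (j → Multiplicative ℤ) →* Kˣ :=
    { toFun := fun c => ∏ x, Units.mk0 (r x) (hr0 x) ^ Multiplicative.toAdd (c x)
      map_one' := by simp
      map_mul' := fun c c' => by simp [_root_.zpow_add, Finset.prod_mul_distrib] }
  have hψ : (powMonoidHom m).comp ψ =
      δ.range.subtype.comp (E.symm.toMonoidHom.comp (MonoidHom.inl _ _)) := by
    refine MonoidHom.pi_ext fun x => fun a => ?_
    refine DFunLike.congr_fun (MonoidHom.ext_mint (f := ((powMonoidHom m).comp ψ).comp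
      (MonoidHom.mulSingle (fun _ : j => Multiplicative ℤ) x)) (g := (δ.range.subtype.comp
        (E.symm.toMonoidHom.comp (MonoidHom.inl _ _))).comp
          (MonoidHom.mulSingle (fun _ : j => Multiplicative ℤ) x)) ?_) a
    refine Units.ext ?_
    have h1 : ψ (Pi.mulSingle x (Multiplicative.ofAdd 1)) = Units.mk0 (r x) (hr0 x) := by
      change (∏ y, _) = _
      rw [Finset.prod_eq_single x (fun y _ hy => by simp [Pi.mulSingle_eq_of_ne hy])
        (fun h => absurd (Finset.mem_univ x) h)]
      simp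
    simp [h1, ← hr x]
  refine ⟨(ψ.comp ((MonoidHom.fst _ _).comp f)).comp τ.ker.subtype, fun h => ?_⟩
  have h1 : f h = ((f h).1, 1) := Prod.ext rfl h.2
  have h2 := DFunLike.congr_fun hψ (f h).1
  simp only [MonoidHom.comp_apply, powMonoidHom_apply] at h2
  refine h2.trans ?_
  change ((E.symm ((f h).1, 1) : δ.range) : Kˣ) = δ h
  rw [← h1]
  simp [f]

/-- A strongly irreducible representation gives one into the special linear group on a subgroup of
finite index. -/
theorem exists_special [IsAlgClosed K] [Group.FG Γ] {n : ℕ} (hn : 2 ≤ n)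
    (ρ : Γ →* Matrix (Fin n) (Fin n) K)
    (hirr : ∀ H : Subgroup Γ, H.FiniteIndex → ∀ W : Submodule K (Fin n → K),
      (∀ h ∈ H, ∀ w ∈ W, ρ h *ᵥ w ∈ W) → W = ⊥ ∨ W = ⊤) :
    ∃ H : Subgroup Γ, H.FiniteIndex ∧ ∃ σ : H →* SL(n, K), StronglySpanning σ := by
  obtain ⟨H, hH, χ, hχ⟩ := exists_root ((Matrix.detMonoidHom).comp ρ).toHomUnits
    (Nat.zero_lt_two.trans_le hn)
  let σ : H →* SL(n, K) :=
    { toFun := fun h => ⟨((χ h : K))⁻¹ • ρ h, by
        rw [det_smul, Fintype.card_fin, inv_pow, ← Units.val_pow_eq_pow_val, hχ h]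
        exact inv_mul_cancel₀ (Units.ne_zero (((Matrix.detMonoidHom).comp ρ).toHomUnits h))⟩
      map_one' := Subtype.ext (by simp)
      map_mul' := fun a b => Subtype.ext (by
        change ((χ (a * b) : K))⁻¹ • ρ ((a * b : H) : Γ) =
          (((χ a : K))⁻¹ • ρ (a : Γ)) * (((χ b : K))⁻¹ • ρ (b : Γ))
        simp [smul_smul, mul_comm]) }
  refine ⟨H, hH, σ, fun L hL => ?_⟩
  have h := Chev.spanning_of_irreducible (σ.comp L.subtype) fun W hW => by
    have hfin : (L.map H.subtype).FiniteIndex := ⟨by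
      rw [Subgroup.index_map_subtype]; exact mul_ne_zero hL.index_ne_zero hH.index_ne_zero⟩
    refine hirr _ hfin W ?_
    rintro _ ⟨h, hh, rfl⟩ w hw
    have := W.smul_mem (χ h : K) (hW ⟨h, hh⟩ w hw)
    change (χ h : K) • (((χ h : K))⁻¹ • ρ (h : Γ)) *ᵥ w ∈ W at this
    rwa [smul_mulVec, smul_smul, mul_inv_cancel₀ (Units.ne_zero _), one_smul] at this
  rw [Semi.Spanning] at h
  rw [← h]
  refine congrArg (Submodule.span K) (Set.ext fun A => ⟨?_, ?_⟩)
  · rintro ⟨g, hg, rfl⟩
    exact ⟨⟨g, hg⟩, rfl⟩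
  · rintro ⟨g, rfl⟩
    exact ⟨g, g.2, rfl⟩

variable {V : Type} [AddCommGroup V] [Module K V]

/-- Trivial action on a subspace and on the quotient: such elements commute. -/
theorem solvableOn_of_parts (ρ : Γ →* Module.End K V) (W : Submodule K V) (H : Subgroup Γ)
    {k : ℕ} (ha : ∀ h ∈ derivedSeries H k, ∀ w ∈ W, ρ (h : Γ) w = w)
    (hb : ∀ h ∈ derivedSeries H k, ∀ v, ρ (h : Γ) v - v ∈ W) : SolvableOn ρ H := by
  refine ⟨k + 1, fun x hx => ?_⟩
  have hle : derivedSeries H (k + 1) ≤ (ρ.comp H.subtype).toHomUnits.ker := by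
    rw [derivedSeries_succ, Subgroup.commutator_le]
    intro a hA b hB
    rw [MonoidHom.mem_ker, map_commutatorElement, commutatorElement_eq_one_iff_mul_comm]
    refine Units.ext (LinearMap.ext fun v => ?_)
    change ρ (a : Γ) (ρ (b : Γ) v) = ρ (b : Γ) (ρ (a : Γ) v)
    have h1 := ha a hA _ (hb b hB v)
    have h2 := ha b hB _ (hb a hA v)
    rw [map_sub, sub_eq_iff_eq_add] at h1 h2
    rw [h1, h2]
    abel
  exact congrArg Units.val (MonoidHom.mem_ker.1 (hle hx))

/-- A derived term of a smaller subgroup lies in that of the larger one. -/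
theorem derived_inclusion {H H' : Subgroup Γ} (hle : H' ≤ H) (k : ℕ) {x : H'}
    (hx : x ∈ derivedSeries H' k) : Subgroup.inclusion hle x ∈ derivedSeries H k :=
  map_derivedSeries_le_derivedSeries (Subgroup.inclusion hle) k (Subgroup.mem_map_of_mem _ hx)

/-- A finitely generated linear group has a subgroup of finite index with solvable image or one
with a strongly irreducible representation of degree at least two in a special linear group. -/
theorem solvable_or_strong [IsAlgClosed K] :
    ∀ (n : ℕ) (Γ : Type) [Group Γ] [Group.FG Γ] (V : Type) [AddCommGroup V] [Module K V]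
      [FiniteDimensional K V] (ρ : Γ →* Module.End K V), Module.finrank K V = n →
      (∃ H : Subgroup Γ, H.FiniteIndex ∧ SolvableOn ρ H) ∨
        ∃ H : Subgroup Γ, H.FiniteIndex ∧ ∃ m, 2 ≤ m ∧ ∃ σ : H →* SL(m, K), StronglySpanning σ := by
  intro n
  induction n using Nat.strong_induction_on with
  | _ n ih =>
  intro Γ _ _ V _ _ _ ρ hn
  rcases Nat.lt_or_ge n 2 with hlt | hge
  · refine Or.inl ⟨⊤, inferInstance, solvableOn_of_comm ρ (fun a b => ?_) ⊤⟩
    rcases Nat.le_one_iff_eq_zero_or_eq_one.1 (Nat.lt_succ_iff.1 hlt) with h0 | h1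
    · rw [h0] at hn
      have := Module.finrank_zero_iff.1 hn
      exact Subsingleton.elim _ _
    · obtain ⟨c, hc⟩ := ((ρ a).existsUnique_eq_smul_id_of_finrank_eq_one (hn.trans h1)).exists
      obtain ⟨c', hc'⟩ := ((ρ b).existsUnique_eq_smul_id_of_finrank_eq_one (hn.trans h1)).exists
      rw [hc, hc']
      ext v
      simp [smul_smul, mul_comm]
  by_cases hirr : ∀ H : Subgroup Γ, H.FiniteIndex → ∀ W : Submodule K V,
      (∀ h ∈ H, ∀ w ∈ W, ρ h w ∈ W) → W = ⊥ ∨ W = ⊤
  · let b := Module.finBasisOfFinrankEq K V hn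
    let M : Γ →* Matrix (Fin n) (Fin n) K :=
      (LinearMap.toMatrixAlgEquiv b).toAlgHom.toMonoidHom.comp ρ
    have hM : ∀ g w, M g *ᵥ w = b.equivFun (ρ g (b.equivFun.symm w)) := fun g w => by
      have e := LinearMap.toMatrix_mulVec_repr b b (ρ g) (b.equivFun.symm w)
      rw [show ⇑(b.repr (b.equivFun.symm w)) = w from b.equivFun.apply_symm_apply w] at e
      exact e
    obtain ⟨H, hH, σ, hσ⟩ := exists_special hge M fun H hH W hW => by
      rcases hirr H hH (W.map b.equivFun.symm.toLinearMap) (by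
        rintro h hh _ ⟨w, hw, rfl⟩
        exact ⟨_, hW h hh w hw, by simp [hM]⟩) with h | h
      · exact Or.inl (Submodule.map_injective_of_injective b.equivFun.symm.injective
          (h.trans (Submodule.map_bot _).symm))
      · exact Or.inr (Submodule.map_injective_of_injective b.equivFun.symm.injective
          (h.trans (by rw [Submodule.map_top, LinearEquiv.range])))
    exact Or.inr ⟨H, hH, n, hge, σ, hσ⟩
  simp only [not_forall, not_or] at hirr
  obtain ⟨H, hH, W, hW, hW0, hWt⟩ := hirr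
  let a : H →* Module.End K W :=
    { toFun := fun h => (ρ h).restrict (hW h h.2)
      map_one' := LinearMap.ext fun v => Subtype.ext (by simp)
      map_mul' := fun x y => LinearMap.ext fun v => Subtype.ext (by simp) }
  let q : H →* Module.End K (V ⧸ W) :=
    { toFun := fun h => W.mapQ W (ρ h) fun v hv => hW h h.2 v hv
      map_one' := Submodule.linearMap_qext _ (LinearMap.ext fun v => by simp)
      map_mul' := fun x y => Submodule.linearMap_qext _ (LinearMap.ext fun v => by simp) }
  have hlift : ∀ L : Subgroup H, L.FiniteIndex → (L.map H.subtype).FiniteIndex := fun L hL => ⟨by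
    rw [Subgroup.index_map_subtype]; exact mul_ne_zero hL.index_ne_zero hH.index_ne_zero⟩
  have hstrong : (∃ L : Subgroup H, L.FiniteIndex ∧ ∃ m, 2 ≤ m ∧ ∃ σ : L →* SL(m, K),
      StronglySpanning σ) → ∃ H : Subgroup Γ, H.FiniteIndex ∧ ∃ m, 2 ≤ m ∧
        ∃ σ : H →* SL(m, K), StronglySpanning σ := by
    rintro ⟨L, hL, m, hm, σ, hσ⟩
    let e := L.equivMapOfInjective H.subtype Subtype.val_injective
    refine ⟨L.map H.subtype, hlift L hL, m, hm, σ.comp e.symm.toMonoidHom, fun M hM => ?_⟩
    have hM' : (M.comap e.toMonoidHom).FiniteIndex := ⟨by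
      rw [Subgroup.index_comap_of_surjective _ e.surjective]; exact hM.index_ne_zero⟩
    rw [← hσ _ hM']
    refine congrArg (Submodule.span K) (Set.ext fun A => ⟨?_, ?_⟩)
    · rintro ⟨x, hx, rfl⟩
      exact ⟨e.symm x, by simpa using hx, rfl⟩
    · rintro ⟨x, hx, rfl⟩
      exact ⟨e x, hx, by simp⟩
  rcases ih _ (hn ▸ Submodule.finrank_lt (lt_top_iff_ne_top.2 hWt).ne) H W a rfl with
    ⟨H₁, hH₁, k₁, hk₁⟩ | h
  swap
  · exact Or.inr (hstrong h)
  have hlt : Module.finrank K (V ⧸ W) < n := by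
    have := W.finrank_quotient_add_finrank
    have : 0 < Module.finrank K W :=
      Module.finrank_pos_iff.2 (Submodule.nontrivial_iff_ne_bot.2 hW0)
    omega
  rcases ih _ hlt H (V ⧸ W) q rfl with ⟨H₂, hH₂, k₂, hk₂⟩ | h
  swap
  · exact Or.inr (hstrong h)
  refine Or.inl ⟨(H₁ ⊓ H₂).map H.subtype, hlift _ inferInstance, ?_⟩
  have hle₁ : (H₁ ⊓ H₂).map H.subtype ≤ H₁.map H.subtype := Subgroup.map_mono inf_le_left
  have hle₂ : (H₁ ⊓ H₂).map H.subtype ≤ H₂.map H.subtype := Subgroup.map_mono inf_le_right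
  have key : ∀ (L : Subgroup H) (hle : (H₁ ⊓ H₂).map H.subtype ≤ L.map H.subtype) (k : ℕ)
      (x : (H₁ ⊓ H₂).map H.subtype), x ∈ derivedSeries _ k →
        ∃ y : L, ((y : H) : Γ) = x ∧ y ∈ derivedSeries L k := by
    intro L hle k x hx
    let e := L.equivMapOfInjective H.subtype Subtype.val_injective
    refine ⟨e.symm (Subgroup.inclusion hle x), ?_, map_derivedSeries_le_derivedSeries
      e.symm.toMonoidHom k (Subgroup.mem_map_of_mem _ (derived_inclusion hle k hx))⟩
    exact congrArg (fun z : L.map H.subtype => (z : Γ))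
      (e.apply_symm_apply (Subgroup.inclusion hle x))
  refine solvableOn_of_parts ρ W _ (k := max k₁ k₂) (fun x hx w hw => ?_) fun x hx v => ?_
  · obtain ⟨y, hy, hy'⟩ := key H₁ hle₁ _ x hx
    have := congrArg (fun f : Module.End K W => ((f ⟨w, hw⟩ : W) : V))
      (hk₁ y (derived_antitone (le_max_left k₁ k₂) hy'))
    simpa [a, hy] using this
  · obtain ⟨y, hy, hy'⟩ := key H₂ hle₂ _ x hx
    have := congrArg (fun f : Module.End K (V ⧸ W) => f (Submodule.Quotient.mk v))
      (hk₂ y (derived_antitone (le_max_right k₁ k₂) hy'))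
    rw [← Submodule.Quotient.eq]
    simpa [q, hy] using this

/-- The alternative for groups of invertible matrices. -/
theorem exists_strong_factor [IsAlgClosed K] [Group.FG Γ] {n : ℕ}
    (ρ : Γ →* GL (Fin n) K)
    (hns : ∀ H : Subgroup Γ, H.FiniteIndex → ¬ Group.IsSolvable (H.map ρ)) :
    ∃ H : Subgroup Γ, H.FiniteIndex ∧ ∃ m, 2 ≤ m ∧ ∃ σ : H →* SL(m, K), StronglySpanning σ := by
  let e : Matrix (Fin n) (Fin n) K ≃ₐ[K] Module.End K (Fin n → K) := Matrix.toLinAlgEquiv'
  let r : Γ →* Module.End K (Fin n → K) :=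
    e.toAlgHom.toMonoidHom.comp ((Units.coeHom _).comp ρ)
  refine (solvable_or_strong n Γ (Fin n → K) r (by simp)).resolve_left ?_
  rintro ⟨H, hH, k, hk⟩
  refine hns H hH ⟨k, ?_⟩
  have hsurj : Function.Surjective (ρ.subgroupMap H) := ρ.subgroupMap_surjective H
  rw [← map_derivedSeries_eq hsurj, eq_bot_iff]
  rintro _ ⟨x, hx, rfl⟩
  rw [Subgroup.mem_bot]
  refine Subtype.ext (Units.ext (e.injective ?_))
  have := hk x hx
  simpa [r] using this

end Vale.Agent.P165.EX.Red
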